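import Mathlib

/-!
Shared definitions for the sharp one-dimensional Lieb-Thirring inequality at `γ = 1` (P371).
-/

open Real

namespace Vale.Agent.P371

/-- `sinc d - cos d`. -/
noncomputable def hker (d : ℝ) : ℝ := Real.sinc d - Real.cos d

/-- The two-point kernel `L[sin²](x,y) - (sin 2x + sin 2y)/2`. -/
noncomputable def fker (x y : ℝ) : ℝ := hker (x - y) * Real.sin (x + y)

/-- Kernel centred at a pivot `z`. -/
noncomputable def baseKer (z x y : ℝ) : ℝ := fker x z + fker y z - fker x y

/-- The positive semidefinite certificate kernel at pivot `z`. -/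
noncomputable def certKer (z x y : ℝ) : ℝ :=
  baseKer z x y / (Real.sin (x + y) * (Real.sin (x + z) * Real.sin (y + z)))

/-- `tr B³`. -/
noncomputable def cubeTrace {n : ℕ} (B : Matrix (Fin n) (Fin n) ℂ) : ℝ := (B * B * B).trace.re

/-- The one-bound-state constant at `γ = 1`. -/
noncomputable def ltOne : ℝ := 4 / (3 * Real.sqrt 3 * Real.pi)

end Vale.Agent.P371
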