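import Vale.Agent.P371.Pointwise

/-!
The sharp kinetic inequality for orthonormal families on the line.
-/

open Matrix Filter Topology Set Real MeasureTheory
open scoped ComplexOrder

namespace Vale.Agent.P371

section general

variable {n : ℕ} {E : Type*} [NormedAddCommGroup E] [InnerProductSpace ℂ E]

lemma re_trace_gram (a : Fin n → E) : (Matrix.gram ℂ a).trace.re = ∑ i, ‖a i‖ ^ 2 := by
  simp only [Matrix.trace, Matrix.diag, Matrix.gram_apply, Complex.re_sum]
  exact Finset.sum_congr rfl fun i _ => by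
    rw [← inner_self_eq_norm_sq (𝕜 := ℂ)]; rfl

lemma gram_sum_smul (a : Fin n → E) (U : Matrix (Fin n) (Fin n) ℂ) :
    Matrix.gram ℂ (fun j => ∑ i, U i j • a i) = Uᴴ * Matrix.gram ℂ a * U := by
  ext p q
  simp only [Matrix.gram_apply, sum_inner, inner_sum, inner_smul_left, inner_smul_right,
    Matrix.mul_apply, Matrix.conjTranspose_apply, Finset.sum_mul, Finset.mul_sum]
  refine Finset.sum_congr rfl fun j _ => Finset.sum_congr rfl fun i _ => ?_
  simp only [Complex.star_def]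
  ring

lemma gramD_sum_smul (a b : Fin n → E) (U : Matrix (Fin n) (Fin n) ℂ) :
    gramD (fun j => ∑ i, U i j • a i) (fun j => ∑ i, U i j • b i) = Uᴴ * gramD a b * U := by
  ext p q
  simp only [gramD, Matrix.of_apply, sum_inner, inner_sum, inner_smul_left, inner_smul_right,
    Matrix.mul_apply, Matrix.conjTranspose_apply, Finset.sum_mul, Finset.mul_sum,
    ← Finset.sum_add_distrib]
  refine Finset.sum_congr rfl fun j _ => Finset.sum_congr rfl fun i _ => ?_
  simp only [Complex.star_def]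
  ring

lemma cubeTrace_conj {U V : Matrix (Fin n) (Fin n) ℂ} (h : U * V = 1)
    (B : Matrix (Fin n) (Fin n) ℂ) : cubeTrace (V * B * U) = cubeTrace B := by
  rw [cubeTrace, cubeTrace, conj_mul h, conj_mul h, Matrix.trace_mul_comm, ← mul_assoc, h, one_mul]

/-- The calibration inequality at one point. -/
theorem calibration {η ε G : ℝ} (hη : 0 ≤ η) (hη1 : η ≤ 1) (hε : 0 < ε) {p : Polynomial ℝ}
    (hp : CloseOn p η (2 * ε)) (hG : ∀ s ∈ Icc (2 * ε) (2 - 2 * ε), |gCot s| ≤ G)
    {M : Matrix (Fin n) (Fin n) ℂ} (hM : M.IsHermitian)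
    (hq : ∀ v : Fin n → ℂ, (∑ i, ∑ j, (starRingEnd ℂ) (v i) * M i j * v j).re ∈
      Icc (ε * ∑ i, ‖v i‖ ^ 2) ((1 - ε) * ∑ i, ‖v i‖ ^ 2))
    (a b : Fin n → E) :
    phiPolyD p M (Matrix.gram ℂ a) (Matrix.gram ℂ a) (gramD a b) ≤
      (∑ i, ‖b i‖ ^ 2) - π ^ 2 / 4 * cubeTrace (Matrix.gram ℂ a) +
        η * (2 + 4 * (2 * G + 1)) * n ^ 3 * (∑ i, ‖a i‖ ^ 2) ^ 3 := by
  set U : Matrix (Fin n) (Fin n) ℂ := (hM.eigenvectorUnitary : Matrix (Fin n) (Fin n) ℂ) with hU
  have h1 : Uᴴ * U = 1 := by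
    rw [← Matrix.star_eq_conjTranspose]; exact Unitary.coe_star_mul_self hM.eigenvectorUnitary
  have h2 : U * Uᴴ = 1 := by
    rw [← Matrix.star_eq_conjTranspose]; exact Unitary.coe_mul_star_self hM.eigenvectorUnitary
  have hdiag : Uᴴ * M * U = Matrix.diagonal fun i => (hM.eigenvalues i : ℂ) := by
    have := hM.conjStarAlgAut_star_eigenvectorUnitary
    simpa [Function.comp_def, Matrix.star_eq_conjTranspose, hU] using this
  have hsum : ∀ i, ∑ l, ‖U l i‖ ^ 2 = 1 := fun i => by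
    have h := congrArg Complex.re (congrFun (congrFun h1 i) i)
    simp only [Matrix.mul_apply, Matrix.conjTranspose_apply, Complex.re_sum, Matrix.one_apply_eq,
      Complex.one_re, Complex.star_def, Complex.conj_mul'] at h
    exact_mod_cast h
  have hm : ∀ i, hM.eigenvalues i ∈ Icc ε (1 - ε) := fun i => by
    have h := congrArg Complex.re (congrFun (congrFun hdiag i) i)
    simp only [Matrix.mul_apply, Matrix.conjTranspose_apply, Matrix.diagonal_apply_eq,
      Complex.ofReal_re, Finset.sum_mul, Complex.star_def] at h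
    rw [Finset.sum_comm] at h
    have := hq fun l => U l i
    simp only [hsum i, mul_one] at this
    rwa [h] at this
  have key := calibration_diagonal hη hη1 hε hp hG hM.eigenvalues hm
    (fun j => ∑ i, U i j • a i) (fun j => ∑ i, U i j • b i)
  have hnorm : ∀ c : Fin n → E, ∑ j, ‖∑ i, U i j • c i‖ ^ 2 = ∑ i, ‖c i‖ ^ 2 := fun c => by
    rw [← re_trace_gram, gram_sum_smul, Matrix.trace_mul_comm, ← mul_assoc, h2, one_mul,
      re_trace_gram]
  rw [gram_sum_smul, gramD_sum_smul, ← hdiag, phiPolyD_conj h2, cubeTrace_conj h2, hnorm, hnorm]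
    at key
  exact key

lemma iterY_bdd {M B : ℝ → Matrix (Fin n) (Fin n) ℂ}
    (hMc : ∀ i j, Continuous fun x => M x i j) (hMb : ∀ i j, ∃ C, ∀ x, ‖M x i j‖ ≤ C)
    (hBc : ∀ i j, Continuous fun x => B x i j) (hBb : ∀ i j, ∃ C, ∀ x, ‖B x i j‖ ≤ C) (k : ℕ) :
    (∀ i j, Continuous fun x => iterY (M x) (B x) k i j) ∧
      ∀ i j, ∃ C, ∀ x, ‖iterY (M x) (B x) k i j‖ ≤ C := by
  induction k with
  | zero => exact ⟨hBc, hBb⟩
  | succ k ih =>
    obtain ⟨hc, hb⟩ := ih
    constructor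
    · intro i j
      simp only [iterY, Matrix.add_apply, Matrix.mul_apply]
      exact (continuous_finsetSum _ fun l _ => (hMc i l).mul (hc l j)).add
        (continuous_finsetSum _ fun l _ => (hc i l).mul (hMc l j))
    · intro i j
      choose C hC using hb
      choose D hD using hMb
      refine ⟨(∑ l, D i l * C l j) + ∑ l, C i l * D l j, fun x => ?_⟩
      simp only [iterY, Matrix.add_apply, Matrix.mul_apply]
      refine (norm_add_le _ _).trans (add_le_add ?_ ?_) <;>
        refine (norm_sum_le _ _).trans (Finset.sum_le_sum fun l _ => ?_) <;> rw [norm_mul]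
      · exact mul_le_mul (hD i l x) (hC l j x) (norm_nonneg _) ((norm_nonneg _).trans (hD i l x))
      · exact mul_le_mul (hC i l x) (hD l j x) (norm_nonneg _) ((norm_nonneg _).trans (hC i l x))

lemma integrable_bdd_mul' {f g : ℝ → ℂ} (hf : Continuous f) (hb : ∃ C, ∀ x, ‖f x‖ ≤ C)
    (hg : Integrable g) : Integrable (fun x => f x * g x) := by
  obtain ⟨C, hC⟩ := hb
  exact hg.bdd_mul hf.aestronglyMeasurable (Eventually.of_forall hC)

lemma integrable_phiPolyD (p : Polynomial ℝ) {M B B' : ℝ → Matrix (Fin n) (Fin n) ℂ}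
    (hMc : ∀ i j, Continuous fun x => M x i j) (hMb : ∀ i j, ∃ C, ∀ x, ‖M x i j‖ ≤ C)
    (hBc : ∀ i j, Continuous fun x => B x i j) (hBb : ∀ i j, ∃ C, ∀ x, ‖B x i j‖ ≤ C)
    (hBi : ∀ i j, Integrable fun x => B x i j) (hB'i : ∀ i j, Integrable fun x => B' x i j) :
    Integrable fun x => phiPolyD p (M x) (B x) (B x) (B' x) := by
  have hD : ∀ k, ∀ i j, Integrable fun x => iterD (M x) (B x) (B x) (B' x) k i j := by
    intro k
    induction k with
    | zero => exact hB'i
    | succ k ih =>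
      obtain ⟨hc, hb⟩ := iterY_bdd hMc hMb hBc hBb k
      intro i j
      simp only [iterD, Matrix.add_apply, Matrix.mul_apply]
      refine Integrable.add (Integrable.add ?_ ?_) (Integrable.add ?_ ?_) <;>
        refine integrable_finsetSum _ fun l _ => ?_
      · simpa only [mul_comm] using integrable_bdd_mul' (hc l j) (hb l j) (hBi i l)
      · exact integrable_bdd_mul' (hc i l) (hb i l) (hBi l j)
      · exact integrable_bdd_mul' (hMc i l) (hMb i l) (ih l j)
      · simpa only [mul_comm] using integrable_bdd_mul' (hMc l j) (hMb l j) (ih i l)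
  simp only [phiPolyD, Polynomial.sum_def]
  refine integrable_finsetSum _ fun k _ => Integrable.const_mul ?_ _
  obtain ⟨hc, hb⟩ := iterY_bdd hMc hMb hBc hBb k
  simp only [Matrix.trace, Matrix.diag, Matrix.mul_apply, Complex.re_sum]
  refine Integrable.add ?_ ?_ <;>
    refine integrable_finsetSum _ fun i _ => integrable_finsetSum _ fun l _ => ?_
  · have := integrable_bdd_mul' (hc l i) (hb l i) (hB'i i l)
    exact (Complex.reCLM.integrable_comp this).congr (Eventually.of_forall fun x => by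
      simp [mul_comm])
  · have := integrable_bdd_mul' (hBc i l) (hBb i l) (hD k l i)
    exact (Complex.reCLM.integrable_comp this).congr (Eventually.of_forall fun x => by simp)

lemma tendsto_phiPoly_zero (p : Polynomial ℝ) {M B : ℝ → Matrix (Fin n) (Fin n) ℂ} {L : Filter ℝ}
    (hMc : ∀ i j, Continuous fun x => M x i j) (hMb : ∀ i j, ∃ C, ∀ x, ‖M x i j‖ ≤ C)
    (hBc : ∀ i j, Continuous fun x => B x i j) (hBb : ∀ i j, ∃ C, ∀ x, ‖B x i j‖ ≤ C)
    (hB0 : ∀ i j, Tendsto (fun x => B x i j) L (𝓝 0)) :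
    Tendsto (fun x => phiPoly p (M x) (B x)) L (𝓝 0) := by
  simp only [phiPoly, Polynomial.sum_def, Matrix.trace, Matrix.diag, Matrix.mul_apply,
    Complex.re_sum, Finset.mul_sum]
  rw [show (0:ℝ) = ∑ _k ∈ p.support, ∑ _i : Fin n, ∑ _l : Fin n, (0:ℝ) by simp]
  refine tendsto_finsetSum _ fun k _ => tendsto_finsetSum _ fun i _ => tendsto_finsetSum _ fun l _ => ?_
  obtain ⟨C, hC⟩ := (iterY_bdd hMc hMb hBc hBb k).2 l i
  have h : Tendsto (fun x => B x i l * iterY (M x) (B x) k l i) L (𝓝 0) := by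
    refine squeeze_zero_norm (fun x => ?_) (by simpa using (hB0 i l).norm.mul_const C)
    rw [norm_mul]
    exact mul_le_mul_of_nonneg_left (hC x) (norm_nonneg _)
  simpa using ((Complex.continuous_re.tendsto 0).comp h).const_mul (p.coeff k)

end general

lemma norm_gram_le {n : ℕ} {E : Type*} [NormedAddCommGroup E] [InnerProductSpace ℂ E]
    (a : Fin n → E) (i j : Fin n) : ‖Matrix.gram ℂ a i j‖ ≤ ∑ i, ‖a i‖ ^ 2 := by
  simp only [Matrix.gram_apply]
  refine (norm_inner_le_norm _ _).trans ?_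
  have h1 := Finset.single_le_sum (f := fun i => ‖a i‖ ^ 2) (fun _ _ => sq_nonneg _)
    (Finset.mem_univ i)
  have h2 := Finset.single_le_sum (f := fun i => ‖a i‖ ^ 2) (fun _ _ => sq_nonneg _)
    (Finset.mem_univ j)
  nlinarith [sq_nonneg (‖a i‖ - ‖a j‖)]

variable {m N : ℕ}

/-- The quadratic form of `ε + θ² ∫_{-∞}^x B` lies in `[ε, 1 - ε]`. -/
lemma primitive_form (u : Fin N → ℝ → EuclideanSpace ℂ (Fin m))
    (hBi : ∀ i j, Integrable fun x => Matrix.gram ℂ (fun i => u i x) i j)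
    (horth : ∀ i j, ∫ x, inner ℂ (u i x) (u j x) = if i = j then (1:ℂ) else 0)
    (θ : ℝ) (x : ℝ) (v : Fin N → ℂ) :
    (∑ i, ∑ j, (starRingEnd ℂ) (v i) * (Matrix.of fun i j =>
      (if i = j then (((1 - θ ^ 2) / 2 : ℝ) : ℂ) else 0) + ((θ ^ 2 : ℝ) : ℂ) *
        ∫ y in Iic x, Matrix.gram ℂ (fun i => u i y) i j) i j * v j).re ∈
      Icc ((1 - θ ^ 2) / 2 * ∑ i, ‖v i‖ ^ 2) ((1 - (1 - θ ^ 2) / 2) * ∑ i, ‖v i‖ ^ 2) := by
  set B : ℝ → Matrix (Fin N) (Fin N) ℂ := fun y => Matrix.gram ℂ fun i => u i y with hB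
  set ε := (1 - θ ^ 2) / 2 with hε
  set f : ℝ → ℝ := fun y => ‖∑ i, v i • u i y‖ ^ 2 with hf
  have hfe : ∀ y, f y = (∑ i, ∑ j, (starRingEnd ℂ) (v i) * B y i j * v j).re := by
    intro y
    simp only [hf]
    rw [← inner_self_eq_norm_sq (𝕜 := ℂ)]
    simp only [sum_inner, inner_sum, inner_smul_left, inner_smul_right, hB, Matrix.gram_apply,
      RCLike.re_to_complex, Finset.mul_sum]
    rw [Finset.sum_comm]
    congr 1
    exact Finset.sum_congr rfl fun i _ => Finset.sum_congr rfl fun j _ => by ring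
  have hfi : Integrable f := by
    rw [show f = _ from funext hfe]
    exact (integrable_finsetSum _ fun i _ => integrable_finsetSum _ fun j _ =>
      ((hBi i j).const_mul _).mul_const _).re
  have hall : ∀ s : Set ℝ, (∑ i, ∑ j, (starRingEnd ℂ) (v i) * (∫ y in s, B y i j) * v j).re =
      ∫ y in s, f y := by
    intro s
    simp only [hfe]
    rw [show (∑ i, ∑ j, (starRingEnd ℂ) (v i) * (∫ y in s, B y i j) * v j) =
      ∫ y in s, ∑ i, ∑ j, (starRingEnd ℂ) (v i) * B y i j * v j by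
        rw [integral_finsetSum _ fun i _ => (integrable_finsetSum _ fun j _ =>
          ((hBi i j).const_mul _).mul_const _).integrableOn]
        refine Finset.sum_congr rfl fun i _ => ?_
        rw [integral_finsetSum _ fun j _ => (((hBi i j).const_mul _).mul_const _).integrableOn]
        exact Finset.sum_congr rfl fun j _ => by rw [integral_mul_const, integral_const_mul]]
    exact (integral_re (integrable_finsetSum _ fun i _ => integrable_finsetSum _ fun j _ =>
      ((hBi i j).const_mul _).mul_const _).integrableOn).symm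
  have h0 : 0 ≤ ∫ y in Iic x, f y := integral_nonneg fun y => sq_nonneg _
  have h1 : ∫ y in Iic x, f y ≤ ∑ i, ‖v i‖ ^ 2 := by
    refine (setIntegral_le_integral hfi (Eventually.of_forall fun y => sq_nonneg _)).trans ?_
    rw [← setIntegral_univ, ← hall univ]
    simp only [setIntegral_univ, hB, Matrix.gram_apply, horth, mul_ite, ite_mul, mul_one, mul_zero,
      zero_mul, Finset.sum_ite_eq, Finset.mem_univ, if_true, Complex.re_sum, Complex.conj_mul']
    exact le_of_eq (Finset.sum_congr rfl fun i _ => by norm_cast)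
  have e : (∑ i, ∑ j, (starRingEnd ℂ) (v i) * (Matrix.of fun i j =>
      (if i = j then (ε : ℂ) else 0) + ((θ ^ 2 : ℝ) : ℂ) * ∫ y in Iic x, B y i j) i j * v j).re =
      ε * ∑ i, ‖v i‖ ^ 2 + θ ^ 2 * ∫ y in Iic x, f y := by
    rw [← hall (Iic x)]
    simp only [Matrix.of_apply, mul_add, add_mul, Finset.sum_add_distrib, mul_ite, ite_mul,
      mul_zero, zero_mul, Finset.sum_ite_eq, Finset.mem_univ, if_true, Complex.add_re,
      Complex.re_sum, Finset.mul_sum]
    refine congrArg₂ (· + ·) (Finset.sum_congr rfl fun i _ => ?_)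
      (Finset.sum_congr rfl fun i _ => Finset.sum_congr rfl fun j _ => ?_)
    · rw [show (starRingEnd ℂ) (v i) * (ε : ℂ) * v i = (ε : ℂ) * ((starRingEnd ℂ) (v i) * v i) by ring,
        Complex.re_ofReal_mul, Complex.conj_mul']
      norm_cast
    · rw [← Complex.re_ofReal_mul]
      congr 1
      ring
  rw [e]
  constructor
  · nlinarith [sq_nonneg θ]
  · have h3 := mul_le_mul_of_nonneg_left h1 (sq_nonneg θ)
    rw [show (1 - ε) * ∑ i, ‖v i‖ ^ 2 = ε * ∑ i, ‖v i‖ ^ 2 + θ ^ 2 * ∑ i, ‖v i‖ ^ 2 by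
      simp only [hε]; ring]
    linarith

/-- The scaled inequality, before letting the scale tend to one. -/
lemma kinetic_scaled (u u' : Fin N → ℝ → EuclideanSpace ℂ (Fin m))
    (hd : ∀ i x, HasDerivAt (u i) (u' i x) x)
    (h2' : ∀ i, MemLp (u' i) 2)
    (horth : ∀ i j, ∫ x, inner ℂ (u i x) (u j x) = if i = j then (1:ℂ) else 0)
    {Cρ : ℝ} (hρle : ∀ x, ∑ i, ‖u i x‖ ^ 2 ≤ Cρ)
    (hρbot : Tendsto (fun x => ∑ i, ‖u i x‖ ^ 2) atBot (𝓝 0))
    (hρtop : Tendsto (fun x => ∑ i, ‖u i x‖ ^ 2) atTop (𝓝 0))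
    (hρ3 : Integrable fun x => (∑ i, ‖u i x‖ ^ 2) ^ 3)
    (hBi : ∀ i j, Integrable fun x => Matrix.gram ℂ (fun i => u i x) i j)
    (hB'1 : ∀ i j, Integrable fun x => inner ℂ (u' i x) (u j x))
    (hB'2 : ∀ i j, Integrable fun x => inner ℂ (u i x) (u' j x))
    (hcube : Integrable fun x => cubeTrace (Matrix.gram ℂ fun i => u i x))
    {θ : ℝ} (hθ0 : 0 < θ) (hθ1 : θ < 1) :
    θ ^ 6 * (π ^ 2 / 4 * ∫ x, cubeTrace (Matrix.gram ℂ fun i => u i x)) ≤
      θ ^ 2 * ∑ i, ∫ x, ‖u' i x‖ ^ 2 := by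
  set B : ℝ → Matrix (Fin N) (Fin N) ℂ := fun x => Matrix.gram ℂ fun i => u i x with hB
  set ρ : ℝ → ℝ := fun x => ∑ i, ‖u i x‖ ^ 2 with hρ
  have hcu : ∀ i, Continuous (u i) := fun i =>
    continuous_iff_continuousAt.2 fun x => (hd i x).continuousAt
  have hBc : ∀ i j, Continuous fun x => B x i j := fun i j => (hcu i).inner (hcu j)
  have hBle : ∀ x i j, ‖B x i j‖ ≤ ρ x := fun x i j => norm_gram_le (fun i => u i x) i j
  set I := ∫ x, cubeTrace (B x) with hI
  set R := ∫ x, ρ x ^ 3 with hR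
  set T := ∑ i, ∫ x, ‖u' i x‖ ^ 2 with hT
  set ε := (1 - θ ^ 2) / 2 with hε
  have hθ2 : θ ^ 2 < 1 := by nlinarith
  have hε0 : 0 < ε := by simp only [hε]; linarith
  obtain ⟨G, hG⟩ : ∃ G, ∀ s ∈ Icc (2 * ε) (2 - 2 * ε), |gCot s| ≤ G := by
    have hcont : ContinuousOn gCot (Icc (2 * ε) (2 - 2 * ε)) := fun s hs =>
      (hasDerivAt_gCot ⟨by linarith [hs.1], by linarith [hs.2]⟩).continuousAt.continuousWithinAt
    obtain ⟨G, hG⟩ := isCompact_Icc.exists_bound_of_continuousOn hcont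
    exact ⟨G, fun s hs => by simpa [Real.norm_eq_abs] using hG s hs⟩
  set a : ℝ → Fin N → EuclideanSpace ℂ (Fin m) := fun x i => (θ : ℂ) • u i x with ha
  set b : ℝ → Fin N → EuclideanSpace ℂ (Fin m) := fun x i => (θ : ℂ) • u' i x with hb
  have hga : ∀ x i j, Matrix.gram ℂ (a x) i j = ((θ ^ 2 : ℝ) : ℂ) * B x i j := by
    intro x i j
    simp only [ha, hB, Matrix.gram_apply, inner_smul_left, inner_smul_right, Complex.conj_ofReal]
    push_cast
    ring
  let Bθ : ℝ → Matrix (Fin N) (Fin N) ℂ := fun x => Matrix.gram ℂ (a x)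
  let M : ℝ → Matrix (Fin N) (Fin N) ℂ := fun x => Matrix.of fun i j =>
    (if i = j then (ε : ℂ) else 0) + ((θ ^ 2 : ℝ) : ℂ) * ∫ y in Iic x, B y i j
  let B'θ : ℝ → Matrix (Fin N) (Fin N) ℂ := fun x => gramD (a x) (b x)
  have hMd : ∀ x, MDeriv M (Bθ x) x := by
    intro x i j
    simp only [M, Bθ, Matrix.of_apply, hga]
    refine ((?_ : HasDerivAt (fun t => ∫ y in Iic t, B y i j) (B x i j) x).const_mul _).const_add _
    have h : HasDerivAt (fun t => ∫ y in (0:ℝ)..t, B y i j) (B x i j) x :=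
      intervalIntegral.integral_hasDerivAt_right (hBi i j).intervalIntegrable
        ((hBc i j).stronglyMeasurable.stronglyMeasurableAtFilter) (hBc i j).continuousAt
    have e : (fun t => ∫ y in Iic t, B y i j) =
        fun t => (∫ y in Iic (0:ℝ), B y i j) + ∫ y in (0:ℝ)..t, B y i j := by
      funext t
      rw [← intervalIntegral.integral_Iic_sub_Iic (hBi i j).integrableOn (hBi i j).integrableOn]
      ring
    rw [e]
    exact h.const_add _
  have hBd : ∀ x, MDeriv Bθ (B'θ x) x := by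
    intro x i j
    simp only [Bθ, B'θ, gramD, Matrix.of_apply, Matrix.gram_apply, ha, hb]
    exact (((hd i x).const_smul (θ : ℂ)).inner ℂ ((hd j x).const_smul (θ : ℂ))).congr_deriv
      (add_comm _ _)
  have hMc : ∀ i j, Continuous fun x => M x i j := fun i j =>
    continuous_iff_continuousAt.2 fun x => (hMd x i j).continuousAt
  have hMb : ∀ i j, ∃ C, ∀ x, ‖M x i j‖ ≤ C := fun i j =>
    ⟨‖(if i = j then (ε : ℂ) else 0)‖ + ‖((θ ^ 2 : ℝ) : ℂ)‖ * ∫ y, ‖B y i j‖, fun x => by
      simp only [M, Matrix.of_apply]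
      refine (norm_add_le _ _).trans (add_le_add le_rfl ?_)
      rw [norm_mul]
      refine mul_le_mul_of_nonneg_left ?_ (norm_nonneg _)
      exact (norm_integral_le_integral_norm _).trans
        (setIntegral_le_integral (hBi i j).norm (Eventually.of_forall fun y => norm_nonneg _))⟩
  have hBθc : ∀ i j, Continuous fun x => Bθ x i j := fun i j => by
    simp only [Bθ, hga]; exact continuous_const.mul (hBc i j)
  have hBθb : ∀ i j, ∃ C, ∀ x, ‖Bθ x i j‖ ≤ C := fun i j =>
    ⟨‖((θ ^ 2 : ℝ) : ℂ)‖ * Cρ, fun x => by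
      simp only [Bθ, hga, norm_mul]
      exact mul_le_mul_of_nonneg_left ((hBle x i j).trans (hρle x)) (norm_nonneg _)⟩
  have hBθi : ∀ i j, Integrable fun x => Bθ x i j := fun i j => by
    simp only [Bθ, hga]; exact (hBi i j).const_mul _
  have hB'i : ∀ i j, Integrable fun x => B'θ x i j := fun i j => by
    simp only [B'θ, gramD, Matrix.of_apply, hb, ha, inner_smul_left, inner_smul_right]
    exact (((hB'1 i j).const_mul _).const_mul _).add
      (((hB'2 i j).const_mul _).const_mul _)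
  have hlim : ∀ {L : Filter ℝ}, Tendsto ρ L (𝓝 0) →
      ∀ i j, Tendsto (fun x => Bθ x i j) L (𝓝 0) := by
    intro L hL i j
    simp only [Bθ, hga]
    have h := squeeze_zero_norm (fun x => hBle x i j) hL
    have h' := h.const_mul ((θ ^ 2 : ℝ) : ℂ)
    rwa [mul_zero] at h'
  -- the spectrum of `M`
  have hMq : ∀ x, ∀ v : Fin N → ℂ, (∑ i, ∑ j, (starRingEnd ℂ) (v i) * M x i j * v j).re ∈
      Icc (ε * ∑ i, ‖v i‖ ^ 2) ((1 - ε) * ∑ i, ‖v i‖ ^ 2) := fun x v =>
    primitive_form u hBi horth θ x v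
  have hMh : ∀ x, (M x).IsHermitian := by
    intro x
    ext i j
    simp only [Matrix.conjTranspose_apply, M, Matrix.of_apply, Complex.star_def, map_add,
      apply_ite (starRingEnd ℂ), Complex.conj_ofReal, map_zero, map_mul, ← integral_conj, hB,
      Matrix.gram_apply, inner_conj_symm, eq_comm (a := j)]
  refine le_of_forall_pos_le_add fun e he => ?_
  set K := (2 + 4 * (2 * G + 1)) * (N : ℝ) ^ 3 * θ ^ 6 * R with hK
  set η := min 1 (e / (|K| + 1)) with hη
  have hη0 : 0 < η := lt_min one_pos (by positivity)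
  obtain ⟨p, hp⟩ := exists_closeOn hη0 (δ := 2 * ε) (by linarith) (by simp only [hε]; nlinarith)
  have hint := integrable_phiPolyD p hMc hMb hBθc hBθb hBθi hB'i
  have hftc := integral_of_hasDerivAt_of_tendsto
    (fun x => hasDerivAt_phiPoly p (hMd x) (hBd x)) hint
    (tendsto_phiPoly_zero p hMc hMb hBθc hBθb (hlim hρbot))
    (tendsto_phiPoly_zero p hMc hMb hBθc hBθb (hlim hρtop))
  rw [sub_zero] at hftc
  have hpt : ∀ x, phiPolyD p (M x) (Bθ x) (Bθ x) (B'θ x) ≤
      θ ^ 2 * ∑ i, ‖u' i x‖ ^ 2 - π ^ 2 / 4 * θ ^ 6 * cubeTrace (B x) +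
        η * (2 + 4 * (2 * G + 1)) * N ^ 3 * θ ^ 6 * ρ x ^ 3 := by
    intro x
    refine (calibration hη0.le (min_le_left _ _) hε0 hp hG (hMh x) (hMq x) (a x) (b x)).trans
      (le_of_eq ?_)
    have e1 : ∀ w : EuclideanSpace ℂ (Fin m), ‖(θ : ℂ) • w‖ ^ 2 = θ ^ 2 * ‖w‖ ^ 2 := fun w => by
      rw [norm_smul, mul_pow, Complex.norm_real, Real.norm_eq_abs, sq_abs]
    have e2 : cubeTrace (Matrix.gram ℂ (a x)) = θ ^ 6 * cubeTrace (B x) := by
      simp only [cubeTrace_eq, hga, Finset.mul_sum]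
      refine Finset.sum_congr rfl fun i _ => Finset.sum_congr rfl fun j _ =>
        Finset.sum_congr rfl fun l _ => ?_
      rw [← Complex.re_ofReal_mul]
      congr 1
      push_cast
      ring
    simp only [hb, ha, e1, ← Finset.mul_sum] at e2 ⊢
    rw [e2, hρ]
    ring
  have hTi : Integrable fun x => θ ^ 2 * ∑ i, ‖u' i x‖ ^ 2 :=
    (integrable_finsetSum _ fun i _ => (h2' i).integrable_norm_pow two_ne_zero).const_mul _
  have hIi : Integrable fun x => π ^ 2 / 4 * θ ^ 6 * cubeTrace (B x) := hcube.const_mul _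
  have hRi : Integrable fun x => η * (2 + 4 * (2 * G + 1)) * N ^ 3 * θ ^ 6 * ρ x ^ 3 :=
    hρ3.const_mul _
  have h12 : Integrable fun x =>
      θ ^ 2 * ∑ i, ‖u' i x‖ ^ 2 - π ^ 2 / 4 * θ ^ 6 * cubeTrace (B x) := hTi.sub hIi
  have hmono := integral_mono hint (h12.add hRi) hpt
  simp only [Pi.add_apply] at hmono
  rw [hftc, integral_add h12 hRi, integral_sub hTi hIi, integral_const_mul, integral_const_mul,
    integral_const_mul, integral_finsetSum _ fun i _ => (h2' i).integrable_norm_pow two_ne_zero]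
    at hmono
  have hKe : η * K ≤ e := by
    have h1 : η * K ≤ η * |K| := mul_le_mul_of_nonneg_left (le_abs_self K) hη0.le
    have h3 : η * (|K| + 1) ≤ e := by
      rw [← le_div_iff₀ (by positivity)]; exact min_le_right _ _
    nlinarith
  simp only [← hI, ← hR, ← hT] at hmono
  linarith [show η * (2 + 4 * (2 * G + 1)) * N ^ 3 * θ ^ 6 * R = η * K by simp only [hK]; ring]

/-- The sharp kinetic inequality: `(π²/4) ∫ tr B³ ≤ ∑ ∫ ‖u'‖²` for orthonormal families. -/
theorem kinetic (u u' : Fin N → ℝ → EuclideanSpace ℂ (Fin m))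
    (hd : ∀ i x, HasDerivAt (u i) (u' i x) x) (hc : ∀ i, Continuous (u' i))
    (h2 : ∀ i, MemLp (u i) 2) (h2' : ∀ i, MemLp (u' i) 2)
    (horth : ∀ i j, ∫ x, inner ℂ (u i x) (u j x) = if i = j then (1:ℂ) else 0) :
    Integrable (fun x => cubeTrace (Matrix.gram ℂ fun i => u i x)) ∧
      π ^ 2 / 4 * ∫ x, cubeTrace (Matrix.gram ℂ fun i => u i x) ≤ ∑ i, ∫ x, ‖u' i x‖ ^ 2 := by
  have hcu : ∀ i, Continuous (u i) := fun i =>
    continuous_iff_continuousAt.2 fun x => (hd i x).continuousAt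
  -- pairwise products are integrable
  have hprod : ∀ {f g : ℝ → EuclideanSpace ℂ (Fin m)}, Continuous f → Continuous g → MemLp f 2 →
      MemLp g 2 → Integrable (fun x => inner ℂ (f x) (g x)) := by
    intro f g hf hg hf2 hg2
    refine ((hf2.integrable_norm_pow two_ne_zero).add (hg2.integrable_norm_pow two_ne_zero)).mono'
      (hf.inner hg).aestronglyMeasurable (Eventually.of_forall fun x => ?_)
    refine (norm_inner_le_norm _ _).trans ?_
    simp only [Pi.add_apply]
    nlinarith [sq_nonneg (‖f x‖ - ‖g x‖)]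
  set ρ : ℝ → ℝ := fun x => ∑ i, ‖u i x‖ ^ 2 with hρ
  set ρ' : ℝ → ℝ := fun x => ∑ i, 2 * (inner ℂ (u i x) (u' i x)).re with hρ'
  have hρi : Integrable ρ := integrable_finsetSum _ fun i _ => (h2 i).integrable_norm_pow two_ne_zero
  have hρ'i : Integrable ρ' :=
    integrable_finsetSum _ fun i _ => ((hprod (hcu i) (hc i) (h2 i) (h2' i)).re).const_mul 2
  have hρd : ∀ x, HasDerivAt ρ (ρ' x) x := by
    intro x
    refine HasDerivAt.fun_sum fun i _ => ?_
    have h := Complex.reCLM.hasFDerivAt.comp_hasDerivAt x ((hd i x).inner ℂ (hd i x))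
    have e : ∀ y, Complex.reCLM (inner ℂ (u i y) (u i y)) = ‖u i y‖ ^ 2 := fun y => by
      rw [← inner_self_eq_norm_sq (𝕜 := ℂ)]; rfl
    simp only [Function.comp_def, e, map_add] at h
    refine h.congr_deriv ?_
    simp only [Complex.reCLM_apply]
    rw [← inner_conj_symm (u' i x), Complex.conj_re]
    ring
  have hρc : Continuous ρ := continuous_finsetSum _ fun i _ => ((hcu i).norm.pow 2)
  have hρ0 : ∀ x, 0 ≤ ρ x := fun x => Finset.sum_nonneg fun i _ => sq_nonneg _
  have hρbot : Tendsto ρ atBot (𝓝 0) :=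
    tendsto_zero_of_hasDerivAt_of_integrableOn_Iic (a := 0) (fun x _ => hρd x)
      hρ'i.integrableOn hρi.integrableOn
  have hρtop : Tendsto ρ atTop (𝓝 0) :=
    tendsto_zero_of_hasDerivAt_of_integrableOn_Ioi (a := 0) (fun x _ => hρd x)
      hρ'i.integrableOn hρi.integrableOn
  set Cρ := ∫ x, |ρ' x| with hCρ
  have hρle : ∀ x, ρ x ≤ Cρ := fun x => by
    have h := integral_Iic_of_hasDerivAt_of_tendsto' (fun y _ => hρd y) hρ'i.integrableOn hρbot
      (a := x)
    rw [sub_zero] at h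
    rw [← h, hCρ]
    exact (le_abs_self _).trans ((abs_integral_le_integral_abs).trans
      (setIntegral_le_integral hρ'i.abs (Eventually.of_forall fun y => abs_nonneg _)))
  have hρ3 : Integrable fun x => ρ x ^ 3 := by
    refine (hρi.const_mul (Cρ ^ 2)).mono' (hρc.pow 3).aestronglyMeasurable
      (Eventually.of_forall fun x => ?_)
    rw [Real.norm_eq_abs, abs_of_nonneg (pow_nonneg (hρ0 x) 3), pow_succ]
    exact mul_le_mul_of_nonneg_right (pow_le_pow_left₀ (hρ0 x) (hρle x) 2) (hρ0 x)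
  set B : ℝ → Matrix (Fin N) (Fin N) ℂ := fun x => Matrix.gram ℂ fun i => u i x with hB
  have hBle : ∀ x i j, ‖B x i j‖ ≤ ρ x := fun x i j => norm_gram_le (fun i => u i x) i j
  have hBc : ∀ i j, Continuous fun x => B x i j := fun i j => (hcu i).inner (hcu j)
  have hBi : ∀ i j, Integrable fun x => B x i j := fun i j => hprod (hcu i) (hcu j) (h2 i) (h2 j)
  have hcube : Integrable fun x => cubeTrace (B x) := by
    refine (hρ3.const_mul ((N : ℝ) ^ 3)).mono' ?_ (Eventually.of_forall fun x => ?_)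
    · refine Continuous.aestronglyMeasurable ?_
      simp only [cubeTrace_eq]
      exact continuous_finsetSum _ fun i _ => continuous_finsetSum _ fun j _ =>
        continuous_finsetSum _ fun l _ =>
          Complex.continuous_re.comp (((hBc i j).mul (hBc j l)).mul (hBc l i))
    · simp only [cubeTrace_eq, Real.norm_eq_abs, hB]
      refine (Finset.abs_sum_le_sum_abs _ _).trans ?_
      have h := fun i j l => abs_triple_le (fun i => u i x) i j l
      calc ∑ i, |∑ j, ∑ l, ((gram ℂ fun i => u i x) i j * (gram ℂ fun i => u i x) j l *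
            (gram ℂ fun i => u i x) l i).re|
          ≤ ∑ _i : Fin N, ∑ _j : Fin N, ∑ _l : Fin N, ρ x ^ 3 :=
            Finset.sum_le_sum fun i _ => (Finset.abs_sum_le_sum_abs _ _).trans
              (Finset.sum_le_sum fun j _ => (Finset.abs_sum_le_sum_abs _ _).trans
                (Finset.sum_le_sum fun l _ => h i j l))
        _ = (N : ℝ) ^ 3 * ρ x ^ 3 := by simp; ring
  refine ⟨hcube, ?_⟩
  set I := ∫ x, cubeTrace (B x) with hI
  set T := ∑ i, ∫ x, ‖u' i x‖ ^ 2 with hT
  have hmain : ∀ θ : ℝ, 0 < θ → θ < 1 → θ ^ 6 * (π ^ 2 / 4 * I) ≤ θ ^ 2 * T := fun θ h0 h1 =>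
    kinetic_scaled u u' hd h2' horth hρle hρbot hρtop hρ3 hBi
      (fun i j => hprod (hc i) (hcu j) (h2' i) (h2 j))
      (fun i j => hprod (hcu i) (hc j) (h2 i) (h2' j)) hcube h0 h1
  -- let `θ → 1`
  have hl : Tendsto (fun θ : ℝ => θ ^ 6 * (π ^ 2 / 4 * I) - θ ^ 2 * T) (𝓝[<] 1)
      (𝓝 (π ^ 2 / 4 * I - T)) := by
    refine tendsto_nhdsWithin_of_tendsto_nhds ?_
    have h : Continuous fun θ : ℝ => θ ^ 6 * (π ^ 2 / 4 * I) - θ ^ 2 * T := by fun_prop
    simpa using h.tendsto 1
  have := le_of_tendsto (b := (0:ℝ)) hl (by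
    filter_upwards [Ioo_mem_nhdsLT one_pos] with θ hθ
    linarith [hmain θ hθ.1 hθ.2])
  linarith

end Vale.Agent.P371
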