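import Mathlib

/-!
# A trace inequality of Young type for positive semidefinite matrices

If `x * y ≤ f x + g y` for all nonnegative reals, then
`Re tr (A * B) ≤ tr f(A) + tr g(B)` for Hermitian `A` and positive semidefinite `B`.
-/

namespace Vale.Agent.P371

open Matrix
open scoped ComplexOrder

variable {n : Type*} [Fintype n] [DecidableEq n]

/-- Overlaps of two orthonormal eigenbases. -/
noncomputable def overlap {A B : Matrix n n ℂ} (hA : A.IsHermitian) (hB : B.IsHermitian)
    (i j : n) : ℝ :=
  Complex.normSq ((star (hA.eigenvectorUnitary : Matrix n n ℂ) *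
    (hB.eigenvectorUnitary : Matrix n n ℂ)) i j)

lemma sum_normSq_row {U : Matrix n n ℂ} (hU : U * star U = 1) (i : n) :
    ∑ j, Complex.normSq (U i j) = 1 := by
  have h := congrFun (congrFun hU i) i
  simp only [Matrix.mul_apply, Matrix.star_apply, Matrix.one_apply_eq, RCLike.star_def,
    Complex.mul_conj] at h
  exact_mod_cast h

lemma sum_normSq_col {U : Matrix n n ℂ} (hU : star U * U = 1) (j : n) :
    ∑ i, Complex.normSq (U i j) = 1 := by
  have h := congrFun (congrFun hU j) j
  simp only [Matrix.mul_apply, Matrix.star_apply, Matrix.one_apply_eq, RCLike.star_def] at h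
  have h' : ∑ i, ((Complex.normSq (U i j) : ℝ) : ℂ) = 1 := by
    rw [← h]
    exact Finset.sum_congr rfl fun i _ => by rw [Complex.normSq_eq_conj_mul_self]
  exact_mod_cast h'

lemma trace_mul_eq_sum_overlap {A B : Matrix n n ℂ} (hA : A.IsHermitian) (hB : B.IsHermitian) :
    (A * B).trace.re = ∑ i, ∑ j, hA.eigenvalues i * hB.eigenvalues j * overlap hA hB i j := by
  have eA := hA.spectral_theorem
  have eB := hB.spectral_theorem
  rw [Unitary.conjStarAlgAut_apply] at eA eB
  set U : Matrix n n ℂ := (hA.eigenvectorUnitary : Matrix n n ℂ) with hU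
  set V : Matrix n n ℂ := (hB.eigenvectorUnitary : Matrix n n ℂ) with hV
  set C : Matrix n n ℂ := star U * V with hC
  have hcalc : (A * B).trace =
      (diagonal (fun i => (hA.eigenvalues i : ℂ)) * C *
        diagonal (fun j => (hB.eigenvalues j : ℂ)) * star C).trace := by
    conv_lhs => rw [eA, eB]
    rw [hC, star_mul, star_star]
    simp only [Matrix.mul_assoc]
    rw [Matrix.trace_mul_comm U]
    simp only [Matrix.mul_assoc]
    rfl
  rw [hcalc, Matrix.trace, Complex.re_sum]
  refine Finset.sum_congr rfl fun i _ => ?_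
  rw [Matrix.diag_apply, Matrix.mul_apply, Complex.re_sum]
  refine Finset.sum_congr rfl fun j _ => ?_
  rw [Matrix.mul_diagonal, Matrix.diagonal_mul, Matrix.star_apply, RCLike.star_def]
  simp only [overlap, hC, hU, hV, Complex.mul_re, Complex.mul_im, Complex.conj_re,
    Complex.conj_im, Complex.ofReal_re, Complex.ofReal_im, Complex.normSq_apply]
  ring

lemma sum_overlap_row {A B : Matrix n n ℂ} (hA : A.IsHermitian) (hB : B.IsHermitian) (i : n) :
    ∑ j, overlap hA hB i j = 1 := by
  refine sum_normSq_row ?_ i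
  have h1 : star (hA.eigenvectorUnitary : Matrix n n ℂ) * hA.eigenvectorUnitary = 1 :=
    Unitary.coe_star_mul_self _
  have h2 : (hB.eigenvectorUnitary : Matrix n n ℂ) * star (hB.eigenvectorUnitary : Matrix n n ℂ) = 1 :=
    Unitary.coe_mul_star_self _
  rw [star_mul, star_star, Matrix.mul_assoc, ← Matrix.mul_assoc (hB.eigenvectorUnitary : Matrix n n ℂ),
    h2, Matrix.one_mul, h1]

lemma sum_overlap_col {A B : Matrix n n ℂ} (hA : A.IsHermitian) (hB : B.IsHermitian) (j : n) :
    ∑ i, overlap hA hB i j = 1 := by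
  refine sum_normSq_col ?_ j
  have h1 : (hA.eigenvectorUnitary : Matrix n n ℂ) * star (hA.eigenvectorUnitary : Matrix n n ℂ) = 1 :=
    Unitary.coe_mul_star_self _
  have h2 : star (hB.eigenvectorUnitary : Matrix n n ℂ) * hB.eigenvectorUnitary = 1 :=
    Unitary.coe_star_mul_self _
  rw [star_mul, star_star, Matrix.mul_assoc, ← Matrix.mul_assoc (hA.eigenvectorUnitary : Matrix n n ℂ),
    h1, Matrix.one_mul, h2]

/-- Young's inequality under the trace. -/
theorem trace_mul_le_sum {A B : Matrix n n ℂ} (hA : A.IsHermitian) (hB : B.PosSemidef)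
    (f g : ℝ → ℝ) (h : ∀ x y : ℝ, 0 ≤ y → x * y ≤ f x + g y) :
    (A * B).trace.re ≤ ∑ i, f (hA.eigenvalues i) + ∑ j, g (hB.1.eigenvalues j) := by
  rw [trace_mul_eq_sum_overlap hA hB.1]
  calc ∑ i, ∑ j, hA.eigenvalues i * hB.1.eigenvalues j * overlap hA hB.1 i j
      ≤ ∑ i, ∑ j, (f (hA.eigenvalues i) + g (hB.1.eigenvalues j)) * overlap hA hB.1 i j := by
        refine Finset.sum_le_sum fun i _ => Finset.sum_le_sum fun j _ => ?_
        exact mul_le_mul_of_nonneg_right
          (h _ _ (hB.eigenvalues_nonneg j)) (Complex.normSq_nonneg _)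
    _ = ∑ i, f (hA.eigenvalues i) + ∑ j, g (hB.1.eigenvalues j) := by
        simp only [add_mul, Finset.sum_add_distrib, ← Finset.mul_sum, sum_overlap_row hA hB.1,
          mul_one]
        congr 1
        rw [Finset.sum_comm]
        simp only [← Finset.mul_sum, sum_overlap_col hA hB.1, mul_one]

/-- The trace of `f(A)` is the sum of `f` over the eigenvalues. -/
lemma trace_cfc_re {A : Matrix n n ℂ} (hA : A.IsHermitian) (f : ℝ → ℝ) :
    (cfc f A).trace.re = ∑ i, f (hA.eigenvalues i) := by
  rw [hA.cfc_eq, Matrix.IsHermitian.cfc, Unitary.conjStarAlgAut_apply, Matrix.trace_mul_cycle,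
    Unitary.coe_star_mul_self, Matrix.one_mul, Matrix.trace_diagonal, Complex.re_sum]
  simp

end Vale.Agent.P371
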