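import Mathlib
import Vale.Agent.P371.Defs
import Vale.Agent.P371.TraceYoung

/-!
# P371: the pointwise potential inequality at `γ = 1`
-/

namespace Vale.Agent.P371

open Matrix MeasureTheory
open scoped ComplexOrder

/-- Scalar Young inequality with the sharp constant. -/
lemma young_scalar (w r : ℝ) (hr : 0 ≤ r) :
    w * r ≤ ltOne * max w 0 ^ (3 / 2 : ℝ) + Real.pi ^ 2 / 4 * r ^ 3 := by
  have hlt : 0 ≤ ltOne := by unfold ltOne; positivity
  by_cases hw : w ≤ 0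
  · rw [max_eq_right hw]
    have h1 : w * r ≤ 0 := mul_nonpos_of_nonpos_of_nonneg hw hr
    have h2 : 0 ≤ Real.pi ^ 2 / 4 * r ^ 3 := by positivity
    have h3 : 0 ≤ ltOne * (0 : ℝ) ^ (3 / 2 : ℝ) := by positivity
    linarith
  push Not at hw
  rw [max_eq_left hw.le]
  obtain ⟨s, hs, rfl⟩ : ∃ s : ℝ, 0 ≤ s ∧ w = s ^ 2 :=
    ⟨Real.sqrt w, Real.sqrt_nonneg _, (Real.sq_sqrt hw.le).symm⟩
  have hpow : (s ^ 2) ^ (3 / 2 : ℝ) = s ^ 3 := by
    rw [← Real.rpow_natCast s 2, ← Real.rpow_mul hs, ← Real.rpow_natCast s 3]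
    norm_num
  rw [hpow]
  set c : ℝ := Real.sqrt 3 * Real.pi / 2 with hc
  have hc0 : 0 < c := by positivity
  have h3 : Real.sqrt 3 * Real.sqrt 3 = 3 := Real.mul_self_sqrt (by norm_num)
  have key : ltOne * s ^ 3 + Real.pi ^ 2 / 4 * r ^ 3 - s ^ 2 * r =
      (c * r - s) ^ 2 * (c * r + 2 * s) / (3 * c) := by
    rw [ltOne, hc]
    field_simp
    ring_nf
    have e2 : Real.sqrt 3 ^ 2 = 3 := by rw [sq]; exact h3
    have e3 : Real.sqrt 3 ^ 3 = 3 * Real.sqrt 3 := by rw [pow_succ, e2]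
    simp only [e3]
    ring
  have : 0 ≤ (c * r - s) ^ 2 * (c * r + 2 * s) / (3 * c) := by positivity
  linarith

variable {m N : ℕ}

/-- The `m × N` matrix with columns `a i`. -/
def colMat (a : Fin N → EuclideanSpace ℂ (Fin m)) : Matrix (Fin m) (Fin N) ℂ :=
  fun k i => a i k

lemma gram_eq_colMat (a : Fin N → EuclideanSpace ℂ (Fin m)) :
    Matrix.gram ℂ a = (colMat a)ᴴ * colMat a := by
  ext i j
  simp [Matrix.gram, colMat, Matrix.mul_apply, PiLp.inner_apply, mul_comm]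

lemma trace_mul_colMat (W : Matrix (Fin m) (Fin m) ℂ) (a : Fin N → EuclideanSpace ℂ (Fin m)) :
    (W * (colMat a * (colMat a)ᴴ)).trace
      = ∑ i, inner ℂ (a i) (WithLp.toLp 2 (W *ᵥ (a i).ofLp)) := by
  simp only [Matrix.trace, Matrix.diag_apply, Matrix.mul_apply, colMat, Matrix.conjTranspose_apply,
    PiLp.inner_apply, Matrix.mulVec, dotProduct, RCLike.inner_apply, RCLike.star_def,
    Finset.mul_sum, Finset.sum_mul]
  conv_lhs =>
    enter [2, k]
    rw [Finset.sum_comm]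
  rw [Finset.sum_comm]
  refine Finset.sum_congr rfl fun i _ => Finset.sum_congr rfl fun k _ =>
    Finset.sum_congr rfl fun l _ => ?_
  ring

lemma cubeTrace_gram (a : Fin N → EuclideanSpace ℂ (Fin m)) :
    cubeTrace (Matrix.gram ℂ a) = ((colMat a * (colMat a)ᴴ) ^ 3).trace.re := by
  rw [cubeTrace, gram_eq_colMat]
  set A := colMat a
  have h1 : Aᴴ * A * (Aᴴ * A) * (Aᴴ * A) = Aᴴ * (A * (Aᴴ * A) * (Aᴴ * A)) := by
    simp only [Matrix.mul_assoc]
  rw [h1, Matrix.trace_mul_comm, pow_three]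
  simp only [Matrix.mul_assoc]

lemma trace_pow_re {n : Type*} [Fintype n] [DecidableEq n] {A : Matrix n n ℂ}
    (hA : A.IsHermitian) (k : ℕ) : (A ^ k).trace.re = ∑ i, hA.eigenvalues i ^ k := by
  have h : cfc (fun x : ℝ => x ^ k) A = A ^ k := cfc_pow_id A k
  rw [← h, trace_cfc_re hA]

lemma trace_colMat_self (a : Fin N → EuclideanSpace ℂ (Fin m)) :
    (colMat a * (colMat a)ᴴ).trace.re = ∑ i, ‖a i‖ ^ 2 := by
  rw [Matrix.trace_mul_comm, ← gram_eq_colMat, Matrix.trace, Complex.re_sum]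
  refine Finset.sum_congr rfl fun i _ => ?_
  rw [Matrix.diag_apply, Matrix.gram_apply, ← inner_self_eq_norm_sq (𝕜 := ℂ)]
  rfl

/-- **Pointwise potential inequality**, for the shifted potential `W - t`. -/
theorem potential_pointwise {W : Matrix (Fin m) (Fin m) ℂ} (hW : W.IsHermitian)
    (a : Fin N → EuclideanSpace ℂ (Fin m)) (t : ℝ) :
    ∑ i, (inner ℂ (a i) (WithLp.toLp 2 (W *ᵥ (a i).ofLp))).re
      ≤ t * ∑ i, ‖a i‖ ^ 2 + Real.pi ^ 2 / 4 * cubeTrace (Matrix.gram ℂ a)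
        + ltOne * ∑ k, max (hW.eigenvalues k - t) 0 ^ (3 / 2 : ℝ) := by
  have hR : (colMat a * (colMat a)ᴴ).PosSemidef := Matrix.posSemidef_self_mul_conjTranspose _
  have h := trace_mul_le_sum hW hR (fun w => ltOne * max (w - t) 0 ^ (3 / 2 : ℝ))
    (fun r => t * r + Real.pi ^ 2 / 4 * r ^ 3) (fun x y hy => by
      have := young_scalar (x - t) y hy
      linarith)
  have e1 : ∑ i, hR.1.eigenvalues i = ∑ i, ‖a i‖ ^ 2 := by
    rw [← trace_colMat_self]
    have := trace_pow_re hR.1 1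
    simp only [pow_one] at this
    exact this.symm
  rw [trace_mul_colMat, Complex.re_sum, ← Finset.mul_sum, Finset.sum_add_distrib, ← Finset.mul_sum,
    ← Finset.mul_sum, ← trace_pow_re hR.1 3, ← cubeTrace_gram, e1] at h
  linarith

lemma quad_nonneg {W : Matrix (Fin m) (Fin m) ℂ} (hW : W.PosSemidef)
    (a : EuclideanSpace ℂ (Fin m)) :
    0 ≤ (inner ℂ a (WithLp.toLp 2 (W *ᵥ a.ofLp))).re := by
  have h := hW.dotProduct_mulVec_nonneg a.ofLp
  have e : inner ℂ a (WithLp.toLp 2 (W *ᵥ a.ofLp)) = star a.ofLp ⬝ᵥ W *ᵥ a.ofLp := by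
    rw [EuclideanSpace.inner_eq_star_dotProduct, dotProduct_comm]
  rw [e]
  exact (Complex.le_def.mp h).1

end Vale.Agent.P371
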