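import Mathlib
import Vale.Agent.P371.Defs
import Vale.Agent.P371.Potential
import Vale.Agent.P371.Kinetic

/-!
# P371: from the kinetic inequality to the Lieb-Thirring inequality
-/

namespace Vale.Agent.P371

open Matrix MeasureTheory
open scoped ComplexOrder

variable {m N : ℕ}

/-- The potential energy density `⟨v, W v⟩`. -/
noncomputable def quad (W : Matrix (Fin m) (Fin m) ℂ) (v : EuclideanSpace ℂ (Fin m)) : ℝ :=
  (inner ℂ v (WithLp.toLp 2 (W *ᵥ v.ofLp))).re

/-- The excess `Σ_k (w_k - t)_+^{3/2}`. -/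
noncomputable def excess (t : ℝ) (W : Matrix (Fin m) (Fin m) ℂ) : ℝ :=
  (cfc (fun w : ℝ => max (w - t) 0 ^ (3 / 2 : ℝ)) W).trace.re

lemma excess_nonneg {W : Matrix (Fin m) (Fin m) ℂ} (hW : W.IsHermitian) (t : ℝ) :
    0 ≤ excess t W := by
  rw [excess, trace_cfc_re hW]
  positivity

lemma excess_zero {W : Matrix (Fin m) (Fin m) ℂ} (hW : W.PosSemidef) :
    excess 0 W = (cfc (fun w : ℝ => w ^ (3 / 2 : ℝ)) W).trace.re := by
  rw [excess, trace_cfc_re hW.1, trace_cfc_re hW.1]
  refine Finset.sum_congr rfl fun i _ => ?_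
  rw [sub_zero, max_eq_left (hW.eigenvalues_nonneg i)]

lemma excess_le {W : Matrix (Fin m) (Fin m) ℂ} (hW : W.PosSemidef) {t : ℝ} (ht : 0 ≤ t) :
    excess t W ≤ excess 0 W := by
  rw [excess, excess, trace_cfc_re hW.1, trace_cfc_re hW.1]
  refine Finset.sum_le_sum fun i _ => Real.rpow_le_rpow (le_max_right _ _) ?_ (by norm_num)
  exact max_le_max (by linarith) le_rfl

lemma measurable_quad {W : ℝ → Matrix (Fin m) (Fin m) ℂ} (hmeas : ∀ k l, Measurable fun x => W x k l)
    {u : ℝ → EuclideanSpace ℂ (Fin m)} (hu : Continuous u) :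
    Measurable fun x => quad (W x) (u x) := by
  have hk : ∀ k, Measurable fun x => (u x).ofLp k := fun k => by
    have : Continuous fun x => (u x).ofLp k := by fun_prop
    exact this.measurable
  simp only [quad, PiLp.inner_apply, Matrix.mulVec, dotProduct, RCLike.inner_apply]
  refine Complex.measurable_re.comp (Finset.measurable_sum _ fun k _ => ?_)
  exact (Finset.measurable_sum _ fun l _ => (hmeas k l).mul (hk l)).mul
    (Complex.continuous_conj.measurable.comp (hk k))

lemma norm_sq_integral_eq_one {u : Fin N → ℝ → EuclideanSpace ℂ (Fin m)}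
    (horth : ∀ i j, ∫ x, inner ℂ (u i x) (u j x) = if i = j then (1 : ℂ) else 0) (i : Fin N) :
    ∫ x, ‖u i x‖ ^ 2 = 1 := by
  have h := horth i i
  rw [if_pos rfl] at h
  simp only [inner_self_eq_norm_sq_to_K] at h
  have h' : ((∫ x, ‖u i x‖ ^ 2 : ℝ) : ℂ) = 1 := by
    rw [← h, ← integral_complex_ofReal]
    exact integral_congr_ae (Filter.Eventually.of_forall fun x => by push_cast; rfl)
  exact_mod_cast h'

lemma integrable_norm_sq {u : ℝ → EuclideanSpace ℂ (Fin m)} (h2 : MemLp u 2) :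
    Integrable fun x => ‖u x‖ ^ 2 :=
  (memLp_two_iff_integrable_sq_norm h2.aestronglyMeasurable).mp h2

/-- Integrability of the potential energies, from the excess above any one level. -/
theorem integrable_quad {W : ℝ → Matrix (Fin m) (Fin m) ℂ} (hW : ∀ x, (W x).PosSemidef)
    (hmeas : ∀ k l, Measurable fun x => W x k l)
    {t : ℝ} (hexc : Integrable fun x => excess t (W x))
    (u u' : Fin N → ℝ → EuclideanSpace ℂ (Fin m))
    (hd : ∀ i x, HasDerivAt (u i) (u' i x) x) (hc : ∀ i, Continuous (u' i))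
    (h2 : ∀ i, MemLp (u i) 2) (h2' : ∀ i, MemLp (u' i) 2)
    (horth : ∀ i j, ∫ x, inner ℂ (u i x) (u j x) = if i = j then (1 : ℂ) else 0) (i : Fin N) :
    Integrable fun x => quad (W x) (u i x) := by
  obtain ⟨hI, -⟩ := kinetic u u' hd hc h2 h2' horth
  have hn : Integrable fun x => ∑ j, ‖u j x‖ ^ 2 :=
    integrable_finsetSum _ fun j _ => integrable_norm_sq (h2 j)
  have hb : Integrable fun x => t * ∑ j, ‖u j x‖ ^ 2
      + Real.pi ^ 2 / 4 * cubeTrace (Matrix.gram ℂ fun j => u j x) + ltOne * excess t (W x) :=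
    ((hn.const_mul _).add (hI.const_mul _)).add (hexc.const_mul _)
  have hu : Continuous (u i) := continuous_iff_continuousAt.mpr fun x => (hd i x).continuousAt
  refine hb.mono' (measurable_quad hmeas hu).aestronglyMeasurable
    (Filter.Eventually.of_forall fun x => ?_)
  rw [Real.norm_eq_abs, abs_of_nonneg (show 0 ≤ quad (W x) (u i x) from quad_nonneg (hW x) _),
    excess, trace_cfc_re (hW x).1]
  refine le_trans ?_ (potential_pointwise (hW x).1 (fun j => u j x) t)
  exact Finset.single_le_sum (f := fun j => quad (W x) (u j x))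
    (fun j _ => quad_nonneg (hW x) _) (Finset.mem_univ i)

/-- Any sub-family: the energies above the level `t` are bounded by the excess. -/
theorem sum_sub_le {W : ℝ → Matrix (Fin m) (Fin m) ℂ} (hW : ∀ x, (W x).PosSemidef)
    (hmeas : ∀ k l, Measurable fun x => W x k l)
    (u u' : Fin N → ℝ → EuclideanSpace ℂ (Fin m))
    (hd : ∀ i x, HasDerivAt (u i) (u' i x) x) (hc : ∀ i, Continuous (u' i))
    (h2 : ∀ i, MemLp (u i) 2) (h2' : ∀ i, MemLp (u' i) 2)
    (horth : ∀ i j, ∫ x, inner ℂ (u i x) (u j x) = if i = j then (1 : ℂ) else 0)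
    {t : ℝ} (hexc : Integrable fun x => excess t (W x)) :
    ∑ i, ((∫ x, quad (W x) (u i x)) - (∫ x, ‖u' i x‖ ^ 2) - t)
      ≤ ltOne * ∫ x, excess t (W x) := by
  obtain ⟨hI, hkin⟩ := kinetic u u' hd hc h2 h2' horth
  have hq := integrable_quad hW hmeas hexc u u' hd hc h2 h2' horth
  have hn := fun i => integrable_norm_sq (h2 i)
  have hpt : ∀ x, ∑ i, (quad (W x) (u i x) - t * ‖u i x‖ ^ 2)
      ≤ Real.pi ^ 2 / 4 * cubeTrace (Matrix.gram ℂ fun j => u j x) + ltOne * excess t (W x) := by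
    intro x
    have h := potential_pointwise (hW x).1 (fun j => u j x) t
    rw [excess, trace_cfc_re (hW x).1, Finset.sum_sub_distrib, ← Finset.mul_sum]
    change ∑ i, quad (W x) (u i x) ≤ _ at h
    linarith
  have hdiff : ∀ i ∈ Finset.univ, Integrable fun x => quad (W x) (u i x) - t * ‖u i x‖ ^ 2 :=
    fun i _ => (hq i).sub ((hn i).const_mul t)
  have hrhs : Integrable fun x =>
      Real.pi ^ 2 / 4 * cubeTrace (Matrix.gram ℂ fun j => u j x) + ltOne * excess t (W x) :=
    (hI.const_mul _).add (hexc.const_mul _)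
  have h := integral_mono (integrable_finsetSum _ hdiff) hrhs hpt
  rw [integral_finsetSum _ hdiff, integral_add (hI.const_mul _) (hexc.const_mul _),
    integral_const_mul, integral_const_mul] at h
  have e : ∀ i, ∫ x, (quad (W x) (u i x) - t * ‖u i x‖ ^ 2)
      = (∫ x, quad (W x) (u i x)) - t := fun i => by
    rw [integral_sub (hq i) ((hn i).const_mul t), integral_const_mul,
      norm_sq_integral_eq_one horth i, mul_one]
  simp only [e, Finset.sum_sub_distrib] at h ⊢
  linarith

/-- **The Lieb-Thirring inequality at `γ = 1`.** -/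
theorem lieb_thirring_one {W : ℝ → Matrix (Fin m) (Fin m) ℂ} (hW : ∀ x, (W x).PosSemidef)
    (hmeas : ∀ k l, Measurable fun x => W x k l)
    (hint : Integrable fun x => (cfc (fun w : ℝ => w ^ (3 / 2 : ℝ)) (W x)).trace.re)
    (u u' : Fin N → ℝ → EuclideanSpace ℂ (Fin m))
    (hd : ∀ i x, HasDerivAt (u i) (u' i x) x) (hc : ∀ i, Continuous (u' i))
    (h2 : ∀ i, MemLp (u i) 2) (h2' : ∀ i, MemLp (u' i) 2)
    (horth : ∀ i j, ∫ x, inner ℂ (u i x) (u j x) = if i = j then (1 : ℂ) else 0) :
    ∑ i, ((∫ x, quad (W x) (u i x)) - ∫ x, ‖u' i x‖ ^ 2)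
      ≤ ltOne * ∫ x, (cfc (fun w : ℝ => w ^ (3 / 2 : ℝ)) (W x)).trace.re := by
  have e : (fun x => excess 0 (W x))
      = fun x => (cfc (fun w : ℝ => w ^ (3 / 2 : ℝ)) (W x)).trace.re :=
    funext fun x => excess_zero (hW x)
  have h := sum_sub_le hW hmeas u u' hd hc h2 h2' horth (t := 0) (by rw [e]; exact hint)
  rw [e] at h
  simpa using h

end Vale.Agent.P371
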