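import Mathlib
import Vale.Agent.P371.Defs
import Vale.Agent.P371.TraceYoung

/-!
# P371: the extremal one-bound-state potential at `γ = 1`

`W = (3/4) sech² x` in one channel, with the normalised function `u = (π cosh x)^{-1/2}`.
-/

namespace Vale.Agent.P371

open Matrix MeasureTheory Filter Topology
open scoped ComplexOrder

lemma trace_cfc_diagonal {n : Type*} [Fintype n] [DecidableEq n] (d : n → ℝ) (f : ℝ → ℝ) :
    (cfc f (diagonal fun i => (d i : ℂ))).trace.re = ∑ i, f (d i) := by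
  have hA : (diagonal fun i => (d i : ℂ)).IsHermitian :=
    isHermitian_diagonal_of_self_adjoint _ (funext fun i => Complex.conj_ofReal (d i))
  rw [trace_cfc_re hA]
  have h1 := hA.roots_charpoly_eq_eigenvalues
  rw [charpoly_diagonal, Polynomial.roots_prod _ _
    (Finset.prod_ne_zero_iff.mpr fun i _ => Polynomial.X_sub_C_ne_zero _)] at h1
  simp only [Polynomial.roots_X_sub_C, Multiset.bind_singleton] at h1
  have h2 := congrArg (fun s : Multiset ℂ => (s.map fun z => f z.re).sum) h1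
  simp only [Multiset.map_map, Function.comp_def, Complex.ofReal_re] at h2
  change ∑ i, f (hA.eigenvalues i) = ∑ i, f (d i)
  simpa using h2.symm

lemma inv_cosh_le (x : ℝ) : (Real.cosh x)⁻¹ ≤ 4 * (1 + x ^ 2)⁻¹ := by
  have h1 : 1 + |x| + |x| ^ 2 / 2 ≤ Real.exp |x| := Real.quadratic_le_exp_of_nonneg (abs_nonneg x)
  have h2 : Real.exp |x| ≤ 2 * Real.cosh x := by
    rw [← Real.cosh_abs x, Real.cosh_eq]
    have := Real.exp_pos (-|x|)
    linarith
  have h3 : (1 + x ^ 2) / 4 ≤ Real.cosh x := by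
    rw [sq_abs] at h1
    nlinarith [abs_nonneg x, sq_nonneg x]
  calc (Real.cosh x)⁻¹ ≤ ((1 + x ^ 2) / 4)⁻¹ :=
        inv_anti₀ (by nlinarith [sq_nonneg x]) h3
    _ = 4 * (1 + x ^ 2)⁻¹ := by rw [inv_div]; rfl

lemma integrable_inv_cosh : Integrable fun x : ℝ => (Real.cosh x)⁻¹ := by
  refine (integrable_inv_one_add_sq.const_mul 4).mono' ?_ (Eventually.of_forall fun x => ?_)
  · exact ((Real.continuous_cosh.inv₀ fun x => (Real.cosh_pos x).ne').aestronglyMeasurable)
  · rw [Real.norm_eq_abs, abs_of_nonneg (inv_nonneg.mpr (Real.cosh_pos x).le)]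
    exact inv_cosh_le x

lemma integrable_inv_cosh_pow_three : Integrable fun x : ℝ => (Real.cosh x ^ 3)⁻¹ := by
  refine integrable_inv_cosh.mono' ?_ (Eventually.of_forall fun x => ?_)
  · exact ((Real.continuous_cosh.pow 3).inv₀ fun x => by
      simp only [Pi.pow_apply]
      exact (pow_pos (Real.cosh_pos x) 3).ne').aestronglyMeasurable
  · have h1 := Real.one_le_cosh x
    have h0 : (0 : ℝ) ≤ (Real.cosh x ^ 3)⁻¹ := inv_nonneg.mpr (pow_pos (Real.cosh_pos x) 3).le
    rw [Real.norm_eq_abs, abs_of_nonneg h0]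
    exact inv_anti₀ (Real.cosh_pos x) (le_self_pow₀ h1 (by norm_num))

lemma tendsto_sinh_atTop' : Tendsto Real.sinh atTop atTop :=
  Real.sinhOrderIso.tendsto_atTop

lemma tendsto_sinh_atBot' : Tendsto Real.sinh atBot atBot :=
  Real.sinhOrderIso.tendsto_atBot

lemma tendsto_arctan_sinh_atTop :
    Tendsto (fun x => Real.arctan (Real.sinh x)) atTop (𝓝 (Real.pi / 2)) :=
  (Real.tendsto_arctan_atTop.mono_right nhdsWithin_le_nhds).comp tendsto_sinh_atTop'

lemma tendsto_arctan_sinh_atBot :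
    Tendsto (fun x => Real.arctan (Real.sinh x)) atBot (𝓝 (-(Real.pi / 2))) :=
  (Real.tendsto_arctan_atBot.mono_right nhdsWithin_le_nhds).comp tendsto_sinh_atBot'

lemma hasDerivAt_arctan_sinh (x : ℝ) :
    HasDerivAt (fun y => Real.arctan (Real.sinh y)) (Real.cosh x)⁻¹ x := by
  have h := (Real.hasDerivAt_sinh x).arctan
  refine h.congr_deriv ?_
  have := Real.cosh_pos x
  rw [add_comm, ← Real.cosh_sq x]
  field_simp

lemma integral_inv_cosh : ∫ x : ℝ, (Real.cosh x)⁻¹ = Real.pi := by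
  rw [integral_of_hasDerivAt_of_tendsto hasDerivAt_arctan_sinh integrable_inv_cosh
    tendsto_arctan_sinh_atBot tendsto_arctan_sinh_atTop]
  ring

lemma tendsto_sinh_div_cosh_sq (l : Filter ℝ) (hl : Tendsto Real.cosh l atTop) :
    Tendsto (fun x => Real.sinh x / Real.cosh x ^ 2) l (𝓝 0) := by
  refine squeeze_zero_norm (fun x => ?_) (tendsto_inv_atTop_zero.comp hl)
  have hc := Real.cosh_pos x
  have hs : |Real.sinh x| ≤ Real.cosh x := by
    rw [abs_le]
    constructor <;> nlinarith [Real.cosh_sq x, Real.cosh_pos x]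
  rw [Real.norm_eq_abs, abs_div, abs_of_pos (pow_pos hc 2), Function.comp_apply,
    div_le_iff₀ (pow_pos hc 2)]
  calc |Real.sinh x| ≤ Real.cosh x := hs
    _ = (Real.cosh x)⁻¹ * Real.cosh x ^ 2 := by field_simp

lemma integral_inv_cosh_pow_three : ∫ x : ℝ, (Real.cosh x ^ 3)⁻¹ = Real.pi / 2 := by
  have hd : ∀ x : ℝ, HasDerivAt
      (fun y => (1 / 2 : ℝ) * (Real.sinh y / Real.cosh y ^ 2 + Real.arctan (Real.sinh y)))
      ((Real.cosh x ^ 3)⁻¹) x := by
    intro x
    have hc := Real.cosh_pos x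
    have h := (((Real.hasDerivAt_sinh x).div ((Real.hasDerivAt_cosh x).pow 2)
      (pow_pos hc 2).ne').add (hasDerivAt_arctan_sinh x)).const_mul (1 / 2 : ℝ)
    refine h.congr_deriv ?_
    simp only [Pi.pow_apply]
    field_simp
    rw [Real.sinh_sq, show (2 : ℕ) - 1 = 1 from rfl, pow_one]
    push_cast
    ring
  have hcT : Tendsto Real.cosh atTop atTop := by
    refine tendsto_atTop_mono (fun x => ?_) tendsto_sinh_atTop'
    nlinarith [Real.cosh_sq x, Real.cosh_pos x]
  have hcB : Tendsto Real.cosh atBot atTop := by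
    have := hcT.comp tendsto_neg_atBot_atTop
    exact this.congr fun x => Real.cosh_neg x
  rw [integral_of_hasDerivAt_of_tendsto hd integrable_inv_cosh_pow_three
    (((tendsto_sinh_div_cosh_sq _ hcB).add tendsto_arctan_sinh_atBot).const_mul _)
    (((tendsto_sinh_div_cosh_sq _ hcT).add tendsto_arctan_sinh_atTop).const_mul _)]
  ring

/-- The normalised profile. -/
noncomputable def prof (x : ℝ) : ℝ := (Real.sqrt Real.pi)⁻¹ * (Real.sqrt (Real.cosh x))⁻¹

/-- Its derivative. -/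
noncomputable def prof' (x : ℝ) : ℝ :=
  -((Real.sqrt Real.pi)⁻¹ * (Real.sinh x / (2 * Real.cosh x * Real.sqrt (Real.cosh x))))

lemma hasDerivAt_prof (x : ℝ) : HasDerivAt prof (prof' x) x := by
  have hc := Real.cosh_pos x
  have hs : Real.sqrt (Real.cosh x) ≠ 0 := (Real.sqrt_pos.mpr hc).ne'
  have h := (((Real.hasDerivAt_cosh x).sqrt hc.ne').fun_inv hs).const_mul (Real.sqrt Real.pi)⁻¹
  refine h.congr_deriv ?_
  simp only [prof']
  rw [Real.sq_sqrt hc.le]
  field_simp

lemma continuous_prof' : Continuous prof' := by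
  unfold prof'
  refine (continuous_const.mul (Continuous.div (by fun_prop) (by fun_prop) fun x => ?_)).neg
  have := Real.cosh_pos x
  positivity

lemma prof_sq (x : ℝ) : prof x ^ 2 = Real.pi⁻¹ * (Real.cosh x)⁻¹ := by
  have hc := Real.cosh_pos x
  rw [prof, mul_pow, inv_pow, inv_pow, Real.sq_sqrt Real.pi_pos.le, Real.sq_sqrt hc.le]

lemma prof'_sq (x : ℝ) :
    prof' x ^ 2 = (4 * Real.pi)⁻¹ * ((Real.cosh x)⁻¹ - (Real.cosh x ^ 3)⁻¹) := by
  have hc := Real.cosh_pos x
  rw [prof', neg_sq, mul_pow, inv_pow, Real.sq_sqrt Real.pi_pos.le, div_pow, mul_pow,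
    Real.sq_sqrt hc.le, mul_pow, Real.sinh_sq]
  field_simp
  ring

/-- The extremal potential `(3/4) sech² x` in channel `k₀`. -/
noncomputable def extW {m : ℕ} (k₀ : Fin m) (x : ℝ) : Matrix (Fin m) (Fin m) ℂ :=
  diagonal fun k => ((if k = k₀ then (3 / 4) * (Real.cosh x ^ 2)⁻¹ else 0 : ℝ) : ℂ)

lemma extW_posSemidef {m : ℕ} (k₀ : Fin m) (x : ℝ) : (extW k₀ x).PosSemidef := by
  refine PosSemidef.diagonal fun k => ?_
  have : (0 : ℝ) ≤ if k = k₀ then (3 / 4) * (Real.cosh x ^ 2)⁻¹ else 0 := by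
    split_ifs <;> positivity
  simpa [Complex.le_def] using this

lemma extW_measurable {m : ℕ} (k₀ : Fin m) (k l : Fin m) :
    Measurable fun x => extW k₀ x k l := by
  by_cases h : k = l
  · subst h
    simp only [extW, diagonal_apply_eq]
    refine Complex.measurable_ofReal.comp ?_
    split_ifs
    · exact (Real.measurable_cosh.pow_const 2).inv.const_mul _
    · exact measurable_const
  · simp only [extW, diagonal_apply_ne _ h]
    exact measurable_const

lemma extW_trace {m : ℕ} (k₀ : Fin m) :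
    (fun x => (cfc (fun w : ℝ => w ^ (3 / 2 : ℝ)) (extW k₀ x)).trace.re)
      = fun x => (3 * Real.sqrt 3 / 8) * (Real.cosh x ^ 3)⁻¹ := by
  funext x
  have hc := Real.cosh_pos x
  rw [extW, trace_cfc_diagonal, Finset.sum_eq_single k₀]
  · rw [if_pos rfl, Real.mul_rpow (by norm_num) (by positivity), Real.inv_rpow (by positivity),
      ← Real.rpow_natCast (Real.cosh x) 2, ← Real.rpow_mul hc.le]
    have e1 : (3 / 4 : ℝ) ^ (3 / 2 : ℝ) = 3 * Real.sqrt 3 / 8 := by
      rw [show (3 / 4 : ℝ) = (Real.sqrt 3 / 2) ^ (2 : ℕ) by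
        rw [div_pow, Real.sq_sqrt (by norm_num : (0:ℝ) ≤ 3)]; norm_num]
      rw [← Real.rpow_natCast (Real.sqrt 3 / 2) 2, ← Real.rpow_mul (by positivity),
        show ((2 : ℕ) : ℝ) * (3 / 2 : ℝ) = ((3 : ℕ) : ℝ) by norm_num, Real.rpow_natCast, div_pow,
        pow_succ, Real.sq_sqrt (by norm_num : (0:ℝ) ≤ 3)]
      ring
    rw [e1, show ((2 : ℕ) : ℝ) * (3 / 2 : ℝ) = ((3 : ℕ) : ℝ) by norm_num, Real.rpow_natCast]
  · intro k _ hk
    rw [if_neg hk, Real.zero_rpow (by norm_num)]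
  · simp

/-- The extremal function in channel `k₀`. -/
noncomputable def extU {m : ℕ} (k₀ : Fin m) (x : ℝ) : EuclideanSpace ℂ (Fin m) :=
  (prof x : ℂ) • EuclideanSpace.single k₀ (1 : ℂ)

/-- Its derivative. -/
noncomputable def extU' {m : ℕ} (k₀ : Fin m) (x : ℝ) : EuclideanSpace ℂ (Fin m) :=
  (prof' x : ℂ) • EuclideanSpace.single k₀ (1 : ℂ)

lemma extU_hasDerivAt {m : ℕ} (k₀ : Fin m) (x : ℝ) :
    HasDerivAt (extU k₀) (extU' k₀ x) x :=
  ((hasDerivAt_prof x).ofReal_comp).smul_const _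

lemma extU'_continuous {m : ℕ} (k₀ : Fin m) : Continuous (extU' k₀) :=
  (Complex.continuous_ofReal.comp continuous_prof').smul continuous_const

lemma norm_extU {m : ℕ} (k₀ : Fin m) (x : ℝ) :
    ‖extU k₀ x‖ ^ 2 = Real.pi⁻¹ * (Real.cosh x)⁻¹ := by
  rw [extU, norm_smul, PiLp.norm_single, norm_one, mul_one, Complex.norm_real,
    Real.norm_eq_abs, sq_abs, prof_sq]

lemma norm_extU' {m : ℕ} (k₀ : Fin m) (x : ℝ) :
    ‖extU' k₀ x‖ ^ 2 = (4 * Real.pi)⁻¹ * ((Real.cosh x)⁻¹ - (Real.cosh x ^ 3)⁻¹) := by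
  rw [extU', norm_smul, PiLp.norm_single, norm_one, mul_one, Complex.norm_real,
    Real.norm_eq_abs, sq_abs, prof'_sq]

lemma extU_memLp {m : ℕ} (k₀ : Fin m) : MemLp (extU k₀) 2 := by
  have hc : Continuous (extU k₀) :=
    continuous_iff_continuousAt.mpr fun x => (extU_hasDerivAt k₀ x).continuousAt
  rw [memLp_two_iff_integrable_sq_norm hc.aestronglyMeasurable]
  simp only [norm_extU]
  exact integrable_inv_cosh.const_mul _

lemma extU'_memLp {m : ℕ} (k₀ : Fin m) : MemLp (extU' k₀) 2 := by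
  rw [memLp_two_iff_integrable_sq_norm (extU'_continuous k₀).aestronglyMeasurable]
  simp only [norm_extU']
  exact (integrable_inv_cosh.sub integrable_inv_cosh_pow_three).const_mul _

lemma extU_norm_one {m : ℕ} (k₀ : Fin m) : ∫ x, inner ℂ (extU k₀ x) (extU k₀ x) = (1 : ℂ) := by
  have h : (fun x => inner ℂ (extU k₀ x) (extU k₀ x))
      = fun x => ((Real.pi⁻¹ * (Real.cosh x)⁻¹ : ℝ) : ℂ) := by
    funext x
    rw [inner_self_eq_norm_sq_to_K, ← norm_extU k₀ x]
    push_cast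
    rfl
  rw [h, integral_complex_ofReal, integral_const_mul, integral_inv_cosh]
  simp [Real.pi_ne_zero]

lemma extU_quad {m : ℕ} (k₀ : Fin m) :
    (fun x => (inner ℂ (extU k₀ x) (WithLp.toLp 2 (extW k₀ x *ᵥ (extU k₀ x).ofLp))).re)
      = fun x => (3 / (4 * Real.pi)) * (Real.cosh x ^ 3)⁻¹ := by
  funext x
  rw [PiLp.inner_apply, Finset.sum_eq_single k₀]
  · simp only [extW, Matrix.mulVec_diagonal, extU, PiLp.smul_apply, PiLp.single_apply,
      if_true, RCLike.inner_apply, smul_eq_mul, mul_one, Complex.conj_ofReal,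
      ← Complex.ofReal_mul, Complex.ofReal_re]
    have hc := Real.cosh_pos x
    have := prof_sq x
    calc _ = (3 / 4) * (Real.cosh x ^ 2)⁻¹ * prof x ^ 2 := by ring
      _ = _ := by rw [this]; field_simp
  · intro k _ hk
    simp [extW, Matrix.mulVec_diagonal, extU, hk]
  · simp

lemma integral_extU_quad {m : ℕ} (k₀ : Fin m) :
    ∫ x, (inner ℂ (extU k₀ x) (WithLp.toLp 2 (extW k₀ x *ᵥ (extU k₀ x).ofLp))).re = 3 / 8 := by
  rw [extU_quad, integral_const_mul, integral_inv_cosh_pow_three]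
  field_simp
  ring

lemma integral_extU' {m : ℕ} (k₀ : Fin m) : ∫ x, ‖extU' k₀ x‖ ^ 2 = 1 / 8 := by
  simp only [norm_extU']
  rw [integral_const_mul, integral_sub integrable_inv_cosh integrable_inv_cosh_pow_three,
    integral_inv_cosh, integral_inv_cosh_pow_three]
  field_simp
  ring

lemma integral_extW {m : ℕ} (k₀ : Fin m) :
    ∫ x, (cfc (fun w : ℝ => w ^ (3 / 2 : ℝ)) (extW k₀ x)).trace.re
      = 3 * Real.sqrt 3 / 8 * (Real.pi / 2) := by
  rw [extW_trace, integral_const_mul, integral_inv_cosh_pow_three]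

lemma ratio_eq : (3 / 8 - 1 / 8 : ℝ) / (3 * Real.sqrt 3 / 8 * (Real.pi / 2)) = ltOne := by
  rw [ltOne]
  field_simp
  ring

end Vale.Agent.P371
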