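import Vale.Agent.P371.Kernel

/-!
The cubic form of a positive semidefinite matrix weighted by the sinc kernel is nonnegative.
-/

open Real
open scoped Matrix ComplexOrder

namespace Vale.Agent.P371

variable {n : ℕ}

lemma KPos.complex {K : Fin n → Fin n → ℝ} (hK : KPos K) :
    (Matrix.of fun i j => (K i j : ℂ)).PosSemidef := by
  refine Matrix.posSemidef_iff_dotProduct_mulVec.2 ⟨?_, fun v => ?_⟩
  · ext i j; simp [hK.1 j i]
  rw [Complex.nonneg_iff]
  simp only [dotProduct, Matrix.mulVec, Matrix.of_apply, Pi.star_apply, Finset.mul_sum,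
    Complex.re_sum, Complex.im_sum, Complex.mul_re, Complex.mul_im, Complex.ofReal_re,
    Complex.ofReal_im, Complex.star_def, Complex.conj_re, Complex.conj_im]
  constructor
  · refine (add_nonneg (hK.2 fun i => (v i).re) (hK.2 fun i => (v i).im)).trans_eq ?_
    rw [← Finset.sum_add_distrib]
    refine Finset.sum_congr rfl fun i _ => ?_
    rw [← Finset.sum_add_distrib]
    exact Finset.sum_congr rfl fun j _ => by ring
  · symm
    have h0 : ∀ (s : Fin n → Fin n → ℝ), (∀ i j, s i j = -s j i) → ∑ i, ∑ j, s i j = 0 := by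
      intro s hs
      have : ∑ i, ∑ j, s i j = -∑ i, ∑ j, s i j := by
        conv_rhs => rw [Finset.sum_comm]
        simp only [← Finset.sum_neg_distrib]
        exact Finset.sum_congr rfl fun i _ => Finset.sum_congr rfl fun j _ => hs i j
      linarith
    refine h0 _ fun i j => ?_
    rw [hK.1 j i]; ring

lemma certKer_eq {z x y : ℝ} : certKer z x y =
    (fker x z + fker y z - fker x y) / (Real.sin (x + y) * (Real.sin (x + z) * Real.sin (y + z))) :=
  rfl

/-- The weighted cubic form is nonnegative. -/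
theorem cubic_nonneg {n : ℕ} (a : Fin n → ℝ) (ha : ∀ i, a i ∈ Set.Ioo 0 (Real.pi / 2))
    {B : Matrix (Fin n) (Fin n) ℂ} (hB : B.PosSemidef) :
    0 ≤ ∑ i, ∑ j, ∑ l, hker (a i - a j) / (Real.sin (a i + a l) * Real.sin (a j + a l))
      * (B i j * B j l * B l i).re := by
  set T : Fin n → Fin n → Fin n → ℝ := fun i j l => (B i j * B j l * B l i).re
  set Pr : Fin n → Fin n → Fin n → ℝ := fun i j l =>
    sin (a i + a j) * (sin (a i + a l) * sin (a j + a l))
  have hs : ∀ i j, sin (a i + a j) ≠ 0 := fun i j =>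
    (sin_pos_of_pos_of_lt_pi (by linarith [(ha i).1, (ha j).1])
      (by linarith [(ha i).2, (ha j).2])).ne'
  have hTc : ∀ i j l, T i j l = T j l i := fun i j l => by simp only [T]; congr 1; ring
  have hPc : ∀ i j l, Pr i j l = Pr j l i := fun i j l => by
    simp only [Pr]; rw [add_comm (a j) (a i), add_comm (a l) (a i)]; ring
  set S : ℝ := ∑ i, ∑ j, ∑ l, fker (a i) (a j) / Pr i j l * T i j l with hS
  have h0 : ∑ i, ∑ j, ∑ l, hker (a i - a j) / (sin (a i + a l) * sin (a j + a l)) * T i j l = S := by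
    refine Finset.sum_congr rfl fun i _ => Finset.sum_congr rfl fun j _ =>
      Finset.sum_congr rfl fun l _ => ?_
    simp only [fker, Pr]
    congr 1
    rw [mul_comm (hker _), mul_div_mul_left _ _ (hs i j)]
  have hK : ∀ l, 0 ≤ ∑ i, ∑ j, certKer (a l) (a i) (a j) * T i j l := by
    intro l
    have hp := ((certKer_kpos a ha (ha l)).complex.hadamard hB).dotProduct_mulVec_nonneg
      (fun j => B j l)
    rw [Complex.nonneg_iff] at hp
    refine hp.1.trans_eq ?_
    simp only [dotProduct, Matrix.mulVec, Matrix.hadamard_apply, Matrix.of_apply, Pi.star_apply,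
      Finset.mul_sum, Complex.re_sum]
    refine Finset.sum_congr rfl fun i _ => Finset.sum_congr rfl fun j _ => ?_
    rw [hB.1.apply l i, ← Complex.re_ofReal_mul]
    congr 1
    ring
  have hsum : ∑ l, ∑ i, ∑ j, certKer (a l) (a i) (a j) * T i j l = S := by
    have hterm : ∀ l i j, certKer (a l) (a i) (a j) * T i j l =
        fker (a l) (a i) / Pr l i j * T l i j + fker (a j) (a l) / Pr j l i * T j l i -
          fker (a i) (a j) / Pr i j l * T i j l := by
      intro l i j
      rw [hTc l i j, hPc l i j, ← hTc i j l, ← hPc i j l, certKer_eq,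
        sincKer_symm (a l) (a i)]
      simp only [Pr]
      ring
    simp only [hterm, Finset.sum_sub_distrib, Finset.sum_add_distrib]
    rw [show ∑ l, ∑ i, ∑ j, fker (a l) (a i) / Pr l i j * T l i j = S from rfl]
    have e1 : ∀ f : Fin n → Fin n → Fin n → ℝ,
        ∑ l, ∑ i, ∑ j, f i j l = ∑ i, ∑ j, ∑ l, f i j l := fun f => by
      rw [Finset.sum_comm]
      exact Finset.sum_congr rfl fun i _ => Finset.sum_comm
    have hmid : ∑ l, ∑ i, ∑ j, fker (a j) (a l) / Pr j l i * T j l i = S :=
      (e1 fun i j l => fker (a j) (a l) / Pr j l i * T j l i).trans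
        (e1 fun j l i => fker (a j) (a l) / Pr j l i * T j l i)
    have hlast : ∑ l, ∑ i, ∑ j, fker (a i) (a j) / Pr i j l * T i j l = S :=
      e1 fun i j l => fker (a i) (a j) / Pr i j l * T i j l
    rw [hmid, hlast]
    ring
  show 0 ≤ ∑ i, ∑ j, ∑ l, hker (a i - a j) / (sin (a i + a l) * sin (a j + a l)) * T i j l
  rw [h0, ← hsum]
  exact Finset.sum_nonneg fun l _ => hK l

end Vale.Agent.P371
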