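import Mathlib

/-!
# P371: the vocabulary of the hand-in
-/

namespace Vale.Agent.P371

open Matrix MeasureTheory
open scoped ComplexOrder

variable {m N : ℕ}

/-- `tr (W x)^p`, the power taken by functional calculus. -/
noncomputable def trPow (p : ℝ) (W : ℝ → Matrix (Fin m) (Fin m) ℂ) (x : ℝ) : ℝ :=
  (cfc (fun w : ℝ => w ^ p) (W x)).trace.re

/-- A potential with exponent `p`. -/
def IsPotential (p : ℝ) (W : ℝ → Matrix (Fin m) (Fin m) ℂ) : Prop :=
  (∀ x, (W x).PosSemidef) ∧ (∀ k l, Measurable fun x => W x k l) ∧ Integrable (trPow p W)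

/-- A finite `L²`-orthonormal family of `C¹` functions with square-integrable derivatives. -/
def IsFamily (u u' : Fin N → ℝ → EuclideanSpace ℂ (Fin m)) : Prop :=
  (∀ i x, HasDerivAt (u i) (u' i x) x) ∧ (∀ i, Continuous (u' i)) ∧
    (∀ i, MemLp (u i) 2) ∧ (∀ i, MemLp (u' i) 2) ∧
    ∀ i j, ∫ x, inner ℂ (u i x) (u j x) = if i = j then (1 : ℂ) else 0

/-- The density `⟨v x, W x (v x)⟩` of potential energy. -/
noncomputable def potDensity (W : ℝ → Matrix (Fin m) (Fin m) ℂ)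
    (v : ℝ → EuclideanSpace ℂ (Fin m)) (x : ℝ) : ℝ :=
  (inner ℂ (v x) (WithLp.toLp 2 (W x *ᵥ (v x).ofLp))).re

/-- Minus the quadratic form of `-d²/dx² - W` at `v`, where `v'` is the derivative of `v`. -/
noncomputable def negEnergy (W : ℝ → Matrix (Fin m) (Fin m) ℂ)
    (v v' : ℝ → EuclideanSpace ℂ (Fin m)) : ℝ :=
  (∫ x, potDensity W v x) - ∫ x, ‖v' x‖ ^ 2

/-- `tr G(x)³` for the Gram matrix `G(x)` of the values `u i x`. -/
noncomputable def gramCube (u : Fin N → ℝ → EuclideanSpace ℂ (Fin m)) (x : ℝ) : ℝ :=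
  ((Matrix.gram ℂ fun i => u i x) ^ 3).trace.re

end Vale.Agent.P371
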