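import Vale.Agent.P371.Defs

/-!
Positive semidefiniteness of the certificate kernel.
-/

open Real MeasureTheory Filter Topology
open scoped Matrix

namespace Vale.Agent.P371

variable {n : ℕ}

/-- A real symmetric kernel on a finite set with nonnegative quadratic form. -/
def KPos (K : Fin n → Fin n → ℝ) : Prop :=
  (∀ i j, K i j = K j i) ∧ ∀ v : Fin n → ℝ, 0 ≤ ∑ i, ∑ j, v i * K i j * v j

lemma kpos_iff (K : Fin n → Fin n → ℝ) : KPos K ↔ (Matrix.of K).PosSemidef := by
  rw [Matrix.posSemidef_iff_dotProduct_mulVec]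
  constructor
  · rintro ⟨hs, hq⟩
    refine ⟨?_, fun v => ?_⟩
    · ext i j; simp [hs j i]
    · have := hq v
      simpa [dotProduct, Matrix.mulVec, Finset.mul_sum, mul_assoc] using this
  · rintro ⟨hh, hq⟩
    refine ⟨fun i j => ?_, fun v => ?_⟩
    · have := congrFun (congrFun hh j) i
      simpa using this
    · have := hq v
      simpa [dotProduct, Matrix.mulVec, Finset.mul_sum, mul_assoc] using this

lemma KPos.congr {K K' : Fin n → Fin n → ℝ} (hK : KPos K) (h : ∀ i j, K i j = K' i j) :
    KPos K' := by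
  rw [← funext fun i => funext (h i)]; exact hK

lemma kpos_outer (u : Fin n → ℝ) : KPos fun i j => u i * u j := by
  refine ⟨fun i j => mul_comm _ _, fun v => ?_⟩
  have : ∑ i, ∑ j, v i * (u i * u j) * v j = (∑ i, v i * u i) * ∑ i, v i * u i := by
    rw [Finset.sum_mul_sum]
    exact Finset.sum_congr rfl fun i _ => Finset.sum_congr rfl fun j _ => by ring
  rw [this]; exact mul_self_nonneg _

lemma kpos_const {c : ℝ} (hc : 0 ≤ c) : KPos fun _ _ : Fin n => c :=
  (kpos_outer fun _ : Fin n => Real.sqrt c).congr fun _ _ => Real.mul_self_sqrt hc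

lemma KPos.add {K L : Fin n → Fin n → ℝ} (hK : KPos K) (hL : KPos L) :
    KPos fun i j => K i j + L i j := by
  refine ⟨fun i j => by simp only [hK.1 i j, hL.1 i j], fun v => ?_⟩
  simp only [mul_add, add_mul, Finset.sum_add_distrib]
  exact add_nonneg (hK.2 v) (hL.2 v)

lemma KPos.smul {K : Fin n → Fin n → ℝ} (hK : KPos K) {c : ℝ} (hc : 0 ≤ c) :
    KPos fun i j => c * K i j := by
  refine ⟨fun i j => by simp only [hK.1 i j], fun v => ?_⟩
  have : ∑ i, ∑ j, v i * (c * K i j) * v j = c * ∑ i, ∑ j, v i * K i j * v j := by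
    simp only [Finset.mul_sum]
    exact Finset.sum_congr rfl fun i _ => Finset.sum_congr rfl fun j _ => by ring
  rw [this]; exact mul_nonneg hc (hK.2 v)

lemma KPos.scale {K : Fin n → Fin n → ℝ} (hK : KPos K) (ρ : Fin n → ℝ) :
    KPos fun i j => ρ i * K i j * ρ j := by
  refine ⟨fun i j => by simp only [hK.1 i j]; ring, fun v => ?_⟩
  refine (hK.2 fun i => v i * ρ i).trans_eq ?_
  exact Finset.sum_congr rfl fun i _ => Finset.sum_congr rfl fun j _ => by ring

lemma KPos.mul {K L : Fin n → Fin n → ℝ} (hK : KPos K) (hL : KPos L) :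
    KPos fun i j => K i j * L i j := by
  rw [kpos_iff] at *
  exact hK.hadamard hL

lemma kpos_tendsto {ι : Type*} {l : Filter ι} [l.NeBot] {K : ι → Fin n → Fin n → ℝ}
    {L : Fin n → Fin n → ℝ} (h : ∀ t, KPos (K t))
    (hlim : ∀ i j, Tendsto (fun t => K t i j) l (𝓝 (L i j))) : KPos L := by
  refine ⟨fun i j => tendsto_nhds_unique (hlim i j) ?_, fun v => ?_⟩
  · exact (hlim j i).congr fun t => (h t).1 j i
  · exact ge_of_tendsto' (tendsto_finsetSum _ fun i _ => tendsto_finsetSum _ fun j _ =>
      ((hlim i j).const_mul (v i)).mul_const (v j)) fun t => (h t).2 v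

lemma kpos_integral {K : ℝ → Fin n → Fin n → ℝ} (hc : ∀ i j, Continuous fun t => K t i j)
    (h : ∀ t ∈ Set.Icc (0:ℝ) 1, KPos (K t)) : KPos fun i j => ∫ t in (0:ℝ)..1, K t i j := by
  refine ⟨fun i j => intervalIntegral.integral_congr fun t ht => ?_, fun v => ?_⟩
  · rw [Set.uIcc_of_le zero_le_one] at ht
    exact (h t ht).1 i j
  · have hi : ∀ i j, IntervalIntegrable (fun t => v i * K t i j * v j) volume 0 1 :=
      fun i j => ((continuous_const.mul (hc i j)).mul continuous_const).intervalIntegrable _ _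
    have : ∑ i, ∑ j, v i * (∫ t in (0:ℝ)..1, K t i j) * v j =
        ∫ t in (0:ℝ)..1, ∑ i, ∑ j, v i * K t i j * v j := by
      have hi' : ∀ i, IntervalIntegrable (fun t => ∑ j, v i * K t i j * v j) volume 0 1 :=
        fun i => (continuous_finsetSum _ fun j _ =>
          (continuous_const.mul (hc i j)).mul continuous_const).intervalIntegrable _ _
      rw [intervalIntegral.integral_finsetSum fun i _ => hi' i]
      refine Finset.sum_congr rfl fun i _ => ?_
      rw [intervalIntegral.integral_finsetSum fun j _ => hi i j]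
      refine Finset.sum_congr rfl fun j _ => ?_
      rw [intervalIntegral.integral_mul_const, intervalIntegral.integral_const_mul]
    rw [this]
    exact intervalIntegral.integral_nonneg zero_le_one fun t ht => (h t ht).2 v

/-- Cauchy's matrix. -/
lemma kpos_cauchy (c : Fin n → ℝ) (hc : ∀ i, 0 < c i) : KPos fun i j => (c i + c j)⁻¹ := by
  refine ⟨fun i j => by simp only [add_comm], fun v => ?_⟩
  suffices ∀ (s : Finset (Fin n)) (v : Fin n → ℝ),
      0 ≤ ∑ i ∈ s, ∑ j ∈ s, v i * (c i + c j)⁻¹ * v j from this Finset.univ v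
  intro s
  induction s using Finset.induction with
  | empty => simp
  | insert a s has ih =>
    intro v
    set u : Fin n → ℝ := fun i => v i * (c i - c a) / (c i + c a) with hu
    have key : ∀ i j, v i * (c i + c j)⁻¹ * v j =
        2 * c a * (v i / (c i + c a)) * (v j / (c j + c a)) + u i * (c i + c j)⁻¹ * u j := by
      intro i j
      have h1 := hc i; have h2 := hc j; have h3 := hc a
      simp only [hu]
      field_simp
      ring
    rw [Finset.sum_congr rfl fun i _ => Finset.sum_congr rfl fun j _ => key i j]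
    simp only [Finset.sum_add_distrib]
    refine add_nonneg ?_ ?_
    · simp only [mul_assoc, ← Finset.mul_sum, ← Finset.sum_mul]
      exact mul_nonneg zero_le_two (mul_nonneg (hc a).le (mul_self_nonneg _))
    · have hua : u a = 0 := by simp [hu]
      simp only [Finset.sum_insert has, hua, zero_mul, mul_zero, zero_add, Finset.sum_const_zero]
      exact ih u

lemma sinc_eq_integral (u : ℝ) : sinc u = ∫ t in (0:ℝ)..1, cos (t * u) := by
  by_cases hu : u = 0
  · simp [hu]
  · have hd : ∀ t ∈ Set.uIcc (0:ℝ) 1, HasDerivAt (fun t => sin (t * u) / u) (cos (t * u)) t := by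
      intro t _
      have h := (((hasDerivAt_id t).mul_const u).sin).div_const u
      simpa [hu] using h
    rw [intervalIntegral.integral_eq_sub_of_hasDerivAt hd
      ((continuous_cos.comp (continuous_id.mul continuous_const)).intervalIntegrable _ _)]
    simp [sinc_of_ne_zero hu]

lemma kpos_sinc (x : Fin n → ℝ) (w : ℝ) : KPos fun i j => sinc (w * (x i - x j)) := by
  refine KPos.congr (kpos_integral (K := fun t i j => cos (t * (w * (x i - x j)))) ?_ ?_)
    fun i j => (sinc_eq_integral _).symm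
  · intro i j; fun_prop
  · intro t _
    refine ((kpos_outer fun i => cos (t * w * x i)).add (kpos_outer fun i => sin (t * w * x i))).congr
      fun i j => ?_
    rw [show t * (w * (x i - x j)) = t * w * x i - t * w * x j by ring, cos_sub]

lemma factor_eq {k v w : ℝ} (h1 : k - v ≠ 0) (h2 : k + v ≠ 0) (hk : k ≠ 0) :
    (1 - (w * v) ^ 2 / k ^ 2) / (1 - v ^ 2 / k ^ 2) =
      w ^ 2 + (1 - w ^ 2) * (k / 2) * ((k - v)⁻¹ + (k + v)⁻¹) := by
  have h4 : k ^ 2 - v ^ 2 ≠ 0 := by
    rw [show k ^ 2 - v ^ 2 = (k - v) * (k + v) by ring]; exact mul_ne_zero h1 h2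
  field_simp
  ring

/-- `sin (w s) / sin s` with `s = x + y`. -/
lemma kpos_sinRatio (x : Fin n → ℝ) (hx : ∀ i, x i ∈ Set.Ioo 0 (π / 2)) {w : ℝ} (h0 : 0 < w)
    (h1 : w ≤ 1) : KPos fun i j => sin (w * (x i + x j)) / sin (x i + x j) := by
  let F : ℕ → Fin n → Fin n → ℝ := fun N i j => w * ∏ k ∈ Finset.range N,
    (w ^ 2 + (1 - w ^ 2) * (((k:ℝ) + 1) / 2) *
      ((((k:ℝ) + 1) - (x i + x j) / π)⁻¹ + (((k:ℝ) + 1) + (x i + x j) / π)⁻¹))
  have hv : ∀ i j, 0 < (x i + x j) / π ∧ (x i + x j) / π < 1 := fun i j => by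
    have hi := hx i; have hj := hx j
    refine ⟨div_pos (by linarith [hi.1, hj.1]) pi_pos, ?_⟩
    rw [div_lt_one pi_pos]; linarith [hi.2, hj.2]
  have hF : ∀ N, KPos (F N) := by
    intro N
    refine KPos.smul ?_ h0.le
    induction N with
    | zero => simpa using kpos_const zero_le_one
    | succ N ih =>
      have hfac : KPos fun i j => w ^ 2 + (1 - w ^ 2) * (((N:ℝ) + 1) / 2) *
          ((((N:ℝ) + 1) - (x i + x j) / π)⁻¹ + (((N:ℝ) + 1) + (x i + x j) / π)⁻¹) := by
        have hN : (0:ℝ) ≤ N := Nat.cast_nonneg N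
        have hm : KPos fun i j => (((N:ℝ) + 1) - (x i + x j) / π)⁻¹ :=
          (kpos_cauchy (fun i => ((N:ℝ) + 1) / 2 - x i / π) fun i => by
            have : x i / π < 1 / 2 := by
              rw [div_lt_iff₀ pi_pos]; linarith [(hx i).2]
            linarith).congr fun i j => by congr 1; ring
        have hp : KPos fun i j => (((N:ℝ) + 1) + (x i + x j) / π)⁻¹ :=
          (kpos_cauchy (fun i => ((N:ℝ) + 1) / 2 + x i / π) fun i => by
            have : 0 < x i / π := div_pos (hx i).1 pi_pos
            linarith).congr fun i j => by congr 1; ring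
        exact (kpos_const (sq_nonneg w)).add ((hm.add hp).smul
          (mul_nonneg (by nlinarith) (by positivity)))
      refine (ih.mul hfac).congr fun i j => ?_
      rw [Finset.prod_range_succ]
  refine kpos_tendsto (l := atTop) hF fun i j => ?_
  set v := (x i + x j) / π with hv'
  have hs : 0 < sin (π * v) := sin_pos_of_pos_of_lt_pi (mul_pos pi_pos (hv i j).1)
    (by calc π * v < π * 1 := mul_lt_mul_of_pos_left (hv i j).2 pi_pos
          _ = π := mul_one π)
  have ht : Tendsto (fun N : ℕ =>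
      π * (w * v) * (∏ k ∈ Finset.range N, ((1:ℝ) - (w * v) ^ 2 / ((k:ℝ) + 1) ^ 2)) /
        (π * v * ∏ k ∈ Finset.range N, ((1:ℝ) - v ^ 2 / ((k:ℝ) + 1) ^ 2))) atTop
      (𝓝 (sin (π * (w * v)) / sin (π * v))) :=
    (tendsto_euler_sin_prod (w * v)).div (tendsto_euler_sin_prod v) hs.ne'
  have e1 : π * v = x i + x j := by rw [hv']; field_simp
  have e2 : sin (π * (w * v)) / sin (π * v) = sin (w * (x i + x j)) / sin (x i + x j) := by
    rw [show π * (w * v) = w * (π * v) by ring, e1]
  rw [← e2]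
  refine ht.congr fun N => ?_
  have hv0 := (hv i j).1
  rw [← hv'] at hv0
  calc π * (w * v) * (∏ k ∈ Finset.range N, (1 - (w * v) ^ 2 / ((k:ℝ) + 1) ^ 2)) /
        (π * v * ∏ k ∈ Finset.range N, (1 - v ^ 2 / ((k:ℝ) + 1) ^ 2))
      = w * ∏ k ∈ Finset.range N,
          ((1 - (w * v) ^ 2 / ((k:ℝ) + 1) ^ 2) / (1 - v ^ 2 / ((k:ℝ) + 1) ^ 2)) := by
        rw [Finset.prod_div_distrib]
        field_simp
    _ = F N i j := by
        show _ = w * _
        congr 1
        refine Finset.prod_congr rfl fun k _ => factor_eq ?_ ?_ ?_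
        · have : v < 1 := (hv i j).2
          have : (0:ℝ) ≤ k := Nat.cast_nonneg k
          linarith
        · positivity
        · positivity

lemma sin_split (A D φ : ℝ) :
    sin A * sin (D - φ) + sin (A + D) * sin φ = sin D * sin (A + φ) := by
  rw [sin_sub, sin_add, sin_add]; ring

/-- `sin (w s + φ) / sin s` for `0 ≤ φ ≤ (1 - w) π`. -/
lemma kpos_shift (x : Fin n → ℝ) (hx : ∀ i, x i ∈ Set.Ioo 0 (π / 2)) {w φ : ℝ} (h0 : 0 < w)
    (h1 : w < 1) (hφ0 : 0 ≤ φ) (hφ : φ ≤ (1 - w) * π) :
    KPos fun i j => sin (w * (x i + x j) + φ) / sin (x i + x j) := by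
  have hD0 : 0 < (1 - w) * π := mul_pos (by linarith) pi_pos
  have hDp : (1 - w) * π < π := by nlinarith [pi_pos]
  have hsD := sin_pos_of_pos_of_lt_pi hD0 hDp
  have hA : 0 ≤ sin ((1 - w) * π - φ) / sin ((1 - w) * π) :=
    div_nonneg (sin_nonneg_of_nonneg_of_le_pi (by linarith) (by linarith)) hsD.le
  have hB : 0 ≤ sin φ / sin ((1 - w) * π) :=
    div_nonneg (sin_nonneg_of_nonneg_of_le_pi hφ0 (by linarith)) hsD.le
  have hx' : ∀ i, π / 2 - x i ∈ Set.Ioo 0 (π / 2) := fun i =>
    ⟨by linarith [(hx i).2], by linarith [(hx i).1]⟩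
  refine (((kpos_sinRatio x hx h0 h1.le).smul hA).add
    ((kpos_sinRatio (fun i => π / 2 - x i) hx' h0 h1.le).smul hB)).congr fun i j => ?_
  rw [show π / 2 - x i + (π / 2 - x j) = π - (x i + x j) by ring, sin_pi_sub,
    show w * (π - (x i + x j)) = π - (w * (x i + x j) + (1 - w) * π) by ring, sin_pi_sub]
  have := sin_split (w * (x i + x j)) ((1 - w) * π) φ
  have hs : sin (x i + x j) ≠ 0 := (sin_pos_of_pos_of_lt_pi (by linarith [(hx i).1, (hx j).1])
    (by linarith [(hx i).2, (hx j).2])).ne'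
  field_simp
  linarith

/-- Integrand of `baseKer`. -/
noncomputable def nInt (z x y w : ℝ) : ℝ :=
  4 * (w * (1 - w)) * (sin (w * (x + y) + 2 * (1 - w) * z) * sinc (w * (x - y)))

lemma continuous_nInt (z x y : ℝ) : Continuous (nInt z x y) :=
  (continuous_const.mul (continuous_id.mul (continuous_const.sub continuous_id))).mul
    ((continuous_sin.comp (by fun_prop)).mul (continuous_sinc.comp (by fun_prop)))

lemma sincKer_symm (x y : ℝ) : fker x y = fker y x := by
  simp only [fker, hker, ← sinc_neg (x - y), neg_sub, add_comm x y]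
  rw [show y - x = -(x - y) by ring, cos_neg]

lemma fker_self (x : ℝ) : fker x x = 0 := by simp [fker, hker]

lemma fker_eq {x y : ℝ} (h : x ≠ y) : fker x y =
    (cos (2 * y) - cos (2 * x)) / (2 * (x - y)) - (sin (2 * x) + sin (2 * y)) / 2 := by
  have hd : x - y ≠ 0 := sub_ne_zero.2 h
  have e1 : cos (2 * y) - cos (2 * x) = 2 * (sin (x - y) * sin (x + y)) := by
    rw [cos_sub_cos, show (2 * y + 2 * x) / 2 = x + y by ring,
      show (2 * y - 2 * x) / 2 = -(x - y) by ring, sin_neg]
    ring
  have e2 : sin (2 * x) + sin (2 * y) = 2 * (cos (x - y) * sin (x + y)) := by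
    have key : ∀ A D : ℝ, sin (A + D) + sin (A - D) = 2 * (cos D * sin A) := fun A D => by
      rw [sin_add, sin_sub]; ring
    have := key (x + y) (x - y)
    rw [show x + y + (x - y) = 2 * x by ring, show x + y - (x - y) = 2 * y by ring] at this
    exact this
  rw [e1, e2, fker, hker, sinc_of_ne_zero hd]
  field_simp

lemma integral_one_sub_mul_cos (a : ℝ) {b : ℝ} (hb : b ≠ 0) :
    ∫ w in (0:ℝ)..1, (1 - w) * cos (a + b * w) =
      (cos a - cos (a + b)) / b ^ 2 - sin a / b := by
  have hd : ∀ w ∈ Set.uIcc (0:ℝ) 1, HasDerivAt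
      (fun w => (1 - w) * sin (a + b * w) / b - cos (a + b * w) / b ^ 2)
      ((1 - w) * cos (a + b * w)) w := by
    intro w _
    have hl : HasDerivAt (fun w => a + b * w) b w := by
      simpa using ((hasDerivAt_id w).const_mul b).const_add a
    have h1 : HasDerivAt (fun w : ℝ => 1 - w) (-1) w := (hasDerivAt_id w).const_sub 1
    refine (((h1.mul hl.sin).div_const b).sub ((hl.cos).div_const (b ^ 2))).congr_deriv ?_
    field_simp
    ring
  rw [intervalIntegral.integral_eq_sub_of_hasDerivAt hd (Continuous.intervalIntegrable (by fun_prop) _ _)]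
  simp
  ring

lemma integral_poly_mul_sin (a : ℝ) {b : ℝ} (hb : b ≠ 0) :
    ∫ w in (0:ℝ)..1, w * (1 - w) * sin (a + b * w) =
      -(sin (a + b) + sin a) / b ^ 2 - 2 * (cos (a + b) - cos a) / b ^ 3 := by
  have hd : ∀ w ∈ Set.uIcc (0:ℝ) 1, HasDerivAt
      (fun w => -(w * (1 - w) * cos (a + b * w) / b) + (1 - 2 * w) * sin (a + b * w) / b ^ 2 -
        2 * cos (a + b * w) / b ^ 3)
      (w * (1 - w) * sin (a + b * w)) w := by
    intro w _
    have hl : HasDerivAt (fun w => a + b * w) b w := by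
      simpa using ((hasDerivAt_id w).const_mul b).const_add a
    have h1 : HasDerivAt (fun w : ℝ => 1 - w) (-1) w := (hasDerivAt_id w).const_sub 1
    have h2 : HasDerivAt (fun w : ℝ => 1 - 2 * w) (-2) w := by
      simpa using ((hasDerivAt_id w).const_mul (2:ℝ)).const_sub 1
    refine (((((hasDerivAt_id' w).mul h1).mul hl.cos).div_const b).neg.add
      ((h2.mul hl.sin).div_const (b ^ 2))).sub ((hl.cos.const_mul 2).div_const (b ^ 3)) |>.congr_deriv ?_
    simp only [Pi.mul_apply]
    field_simp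
    ring
  rw [intervalIntegral.integral_eq_sub_of_hasDerivAt hd (Continuous.intervalIntegrable (by fun_prop) _ _)]
  simp
  ring

lemma baseKer_eq_integral (z x y : ℝ) :
    baseKer z x y = (x - z) * (y - z) * ∫ w in (0:ℝ)..1, nInt z x y w := by
  rcases eq_or_ne x z with hxz | hxz
  · subst hxz; simp [baseKer, fker_self, sincKer_symm y x]
  rcases eq_or_ne y z with hyz | hyz
  · subst hyz; simp [baseKer, fker_self]
  have hX : x - z ≠ 0 := sub_ne_zero.2 hxz
  have hY : y - z ≠ 0 := sub_ne_zero.2 hyz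
  rcases eq_or_ne x y with hxy | hxy
  · subst hxy
    have e : ∀ w, nInt z x x w = 4 * (w * (1 - w) * sin (2 * z + 2 * (x - z) * w)) := fun w => by
      simp only [nInt, sub_self, mul_zero, sinc_zero, mul_one]
      rw [show w * (x + x) + 2 * (1 - w) * z = 2 * z + 2 * (x - z) * w by ring]
      ring
    simp only [e]
    rw [intervalIntegral.integral_const_mul, integral_poly_mul_sin _ (mul_ne_zero two_ne_zero hX),
      baseKer, fker_self, fker_eq hxz, show 2 * z + 2 * (x - z) = 2 * x by ring]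
    field_simp
    ring
  · have hd : x - y ≠ 0 := sub_ne_zero.2 hxy
    have e : ∀ w, nInt z x y w = 2 / (x - y) *
        ((1 - w) * cos (2 * z + 2 * (y - z) * w) - (1 - w) * cos (2 * z + 2 * (x - z) * w)) := by
      intro w
      rw [← mul_sub, cos_sub_cos,
        show (2 * z + 2 * (y - z) * w + (2 * z + 2 * (x - z) * w)) / 2 =
          w * (x + y) + 2 * (1 - w) * z by ring,
        show (2 * z + 2 * (y - z) * w - (2 * z + 2 * (x - z) * w)) / 2 = -(w * (x - y)) by ring,
        sin_neg]
      rcases eq_or_ne w 0 with hw | hw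
      · simp [nInt, hw]
      · rw [nInt, sinc_of_ne_zero (mul_ne_zero hw hd)]
        field_simp
        ring
    simp only [e]
    rw [intervalIntegral.integral_const_mul, intervalIntegral.integral_sub
      (Continuous.intervalIntegrable (by fun_prop) _ _)
      (Continuous.intervalIntegrable (by fun_prop) _ _),
      integral_one_sub_mul_cos _ (mul_ne_zero two_ne_zero hX),
      integral_one_sub_mul_cos _ (mul_ne_zero two_ne_zero hY),
      baseKer, fker_eq hxz, fker_eq hyz, fker_eq hxy, show 2 * z + 2 * (x - z) = 2 * x by ring,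
      show 2 * z + 2 * (y - z) = 2 * y by ring]
    field_simp
    ring

theorem certKer_kpos (a : Fin n → ℝ) {z : ℝ} (ha : ∀ i, a i ∈ Set.Ioo 0 (π / 2))
    (hz : z ∈ Set.Ioo 0 (π / 2)) : KPos fun i j => certKer z (a i) (a j) := by
  have hpos : ∀ i j, sin (a i + a j) ≠ 0 := fun i j =>
    (sin_pos_of_pos_of_lt_pi (by linarith [(ha i).1, (ha j).1])
      (by linarith [(ha i).2, (ha j).2])).ne'
  have hint : KPos fun i j => ∫ w in (0:ℝ)..1, nInt z (a i) (a j) w / sin (a i + a j) := by
    refine kpos_integral (fun i j => (continuous_nInt _ _ _).div_const _) fun w hw => ?_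
    rcases eq_or_ne (w * (1 - w)) 0 with h | h
    · exact (kpos_const le_rfl).congr fun i j => by simp [nInt, h]
    have h0 : 0 < w := lt_of_le_of_ne hw.1 (fun h' => h (by simp [← h']))
    have h1 : w < 1 := lt_of_le_of_ne hw.2 (fun h' => h (by simp [h']))
    have hc : 0 ≤ 4 * (w * (1 - w)) := by nlinarith
    have hφ0 : 0 ≤ 2 * (1 - w) * z := by nlinarith [hz.1]
    have hφ : 2 * (1 - w) * z ≤ (1 - w) * π := by nlinarith [hz.2]
    refine (((kpos_shift a ha h0 h1 hφ0 hφ).mul (kpos_sinc a w)).smul hc).congr fun i j => ?_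
    simp only [nInt]; ring
  refine (hint.scale fun i => (a i - z) / sin (a i + z)).congr fun i j => ?_
  rw [intervalIntegral.integral_div, certKer, baseKer_eq_integral]
  ring

/-- The certificate kernel is positive semidefinite. -/
theorem certKer_posSemidef {n : ℕ} (a : Fin n → ℝ) (z : ℝ)
    (ha : ∀ i, a i ∈ Set.Ioo 0 (Real.pi / 2)) (hz : z ∈ Set.Ioo 0 (Real.pi / 2)) :
    (Matrix.of fun i j => certKer z (a i) (a j)).PosSemidef :=
  (kpos_iff _).1 (certKer_kpos a ha hz)

end Vale.Agent.P371
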