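import Mathlib

/-!
# P371: the layer-cake identity behind the lifting of exponents
-/

namespace Vale.Agent.P371

open MeasureTheory Set
open scoped ENNReal

/-- `∫_0^w t^(a-1) (w-t)^q dt = w^(a+q) Γ(a) Γ(q+1) / Γ(a+q+1)`. -/
lemma beta_scaled_real {a q w : ℝ} (ha : 0 < a) (hq : 0 ≤ q) (hw : 0 < w) :
    ∫ t in (0 : ℝ)..w, t ^ (a - 1) * (w - t) ^ q
      = w ^ (a + q) * (Real.Gamma a * Real.Gamma (q + 1) / Real.Gamma (a + q + 1)) := by
  have h1 := Complex.betaIntegral_scaled (a : ℂ) ((q + 1 : ℝ) : ℂ) hw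
  have h2 := Complex.Gamma_mul_Gamma_eq_betaIntegral (s := (a : ℂ)) (t := ((q + 1 : ℝ) : ℂ))
    (by simpa using ha) (by rw [Complex.ofReal_re]; linarith)
  rw [← Complex.ofReal_add, Complex.Gamma_ofReal, Complex.Gamma_ofReal, Complex.Gamma_ofReal]
    at h2
  have hne : (Real.Gamma (a + (q + 1)) : ℂ) ≠ 0 := by
    exact_mod_cast (Real.Gamma_pos_of_pos (by linarith)).ne'
  have hB : Complex.betaIntegral (a : ℂ) ((q + 1 : ℝ) : ℂ)
      = ((Real.Gamma a * Real.Gamma (q + 1) / Real.Gamma (a + (q + 1)) : ℝ) : ℂ) := by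
    rw [Complex.ofReal_div, Complex.ofReal_mul, eq_div_iff hne, mul_comm, ← h2]
  rw [hB] at h1
  have hL : ∫ x in (0 : ℝ)..w, (x : ℂ) ^ ((a : ℂ) - 1) * ((w : ℂ) - x) ^ (((q + 1 : ℝ) : ℂ) - 1)
      = ((∫ t in (0 : ℝ)..w, t ^ (a - 1) * (w - t) ^ q : ℝ) : ℂ) := by
    rw [← intervalIntegral.integral_ofReal]
    refine intervalIntegral.integral_congr fun x hx => ?_
    rw [uIcc_of_le hw.le] at hx
    rw [Complex.ofReal_mul, Complex.ofReal_cpow hx.1, Complex.ofReal_cpow (by linarith [hx.2])]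
    push_cast
    ring_nf
  rw [hL, ← Complex.ofReal_add, ← Complex.ofReal_one, ← Complex.ofReal_sub,
    ← Complex.ofReal_cpow hw.le, ← Complex.ofReal_mul] at h1
  have h3 := Complex.ofReal_injective h1
  rw [h3, show a + (q + 1) - 1 = a + q by ring, show a + (q + 1) = a + q + 1 by ring]

/-- The layer-cake identity on the half line, as a lower integral. -/
lemma lintegral_layer {a q : ℝ} (ha : 0 < a) (hq : 0 < q) (w : ℝ) :
    ∫⁻ t in Ioi (0 : ℝ), ENNReal.ofReal (t ^ (a - 1) * max (w - t) 0 ^ q)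
      = ENNReal.ofReal (max w 0 ^ (a + q) *
          (Real.Gamma a * Real.Gamma (q + 1) / Real.Gamma (a + q + 1))) := by
  by_cases hw : w ≤ 0
  · rw [max_eq_right hw, Real.zero_rpow (by linarith : a + q ≠ 0), zero_mul, ENNReal.ofReal_zero]
    rw [setLIntegral_congr_fun (g := fun _ => 0) measurableSet_Ioi, lintegral_zero]
    intro t ht
    rw [mem_Ioi] at ht
    dsimp only
    rw [max_eq_right (by linarith : w - t ≤ 0), Real.zero_rpow hq.ne', mul_zero,
      ENNReal.ofReal_zero]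
  push Not at hw
  rw [max_eq_left hw.le, ← beta_scaled_real ha hq.le hw, intervalIntegral.integral_of_le hw.le]
  have hint : IntegrableOn (fun t : ℝ => t ^ (a - 1) * (w - t) ^ q) (Ioc 0 w) := by
    rw [← intervalIntegrable_iff_integrableOn_Ioc_of_le hw.le]
    exact (intervalIntegral.intervalIntegrable_rpow' (by linarith)).mul_continuousOn
      ((continuous_const.sub continuous_id).rpow_const fun _ => Or.inr hq.le).continuousOn
  have hnn : 0 ≤ᵐ[volume.restrict (Ioc 0 w)] fun t : ℝ => t ^ (a - 1) * (w - t) ^ q := by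
    filter_upwards [ae_restrict_mem measurableSet_Ioc] with t ht
    exact mul_nonneg (Real.rpow_nonneg ht.1.le _) (Real.rpow_nonneg (by linarith [ht.2]) _)
  rw [ofReal_integral_eq_lintegral_ofReal hint hnn, ← Ioc_union_Ioi_eq_Ioi hw.le,
    lintegral_union measurableSet_Ioi (Ioc_disjoint_Ioi le_rfl)]
  have hz : ∫⁻ t in Ioi w, ENNReal.ofReal (t ^ (a - 1) * max (w - t) 0 ^ q) = 0 := by
    rw [setLIntegral_congr_fun (g := fun _ => 0) measurableSet_Ioi, lintegral_zero]
    intro t ht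
    rw [mem_Ioi] at ht
    dsimp only
    rw [max_eq_right (by linarith : w - t ≤ 0), Real.zero_rpow hq.ne', mul_zero,
      ENNReal.ofReal_zero]
  rw [hz, add_zero]
  refine setLIntegral_congr_fun measurableSet_Ioc fun t ht => ?_
  rw [max_eq_left (by linarith [ht.2] : (0 : ℝ) ≤ w - t)]

end Vale.Agent.P371
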