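import Mathlib
import Vale.Agent.P371.Apply
import Vale.Agent.P371.Layer

/-!
# P371: lifting the sharp bound at `γ = 1` to larger exponents
-/

namespace Vale.Agent.P371

open Matrix MeasureTheory Filter Topology Set
open scoped ComplexOrder ENNReal

variable {m N : ℕ}

lemma measurable_pow_entry {W : ℝ → Matrix (Fin m) (Fin m) ℂ}
    (hmeas : ∀ k l, Measurable fun x => W x k l) :
    ∀ (n : ℕ) (k l : Fin m), Measurable fun x => (W x ^ n) k l := by
  intro n
  induction n with
  | zero => intro k l; simp only [pow_zero]; exact measurable_const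
  | succ n ih =>
    intro k l
    simp only [pow_succ, Matrix.mul_apply]
    exact Finset.measurable_sum _ fun j _ => (ih k j).mul (hmeas j l)

/-- Traces of continuous functions of a measurable Hermitian matrix field are measurable. -/
lemma measurable_trace_cfc {W : ℝ → Matrix (Fin m) (Fin m) ℂ}
    (hW : ∀ x, (W x).IsHermitian) (hmeas : ∀ k l, Measurable fun x => W x k l)
    {f : ℝ → ℝ} (hf : Continuous f) : Measurable fun x => (cfc f (W x)).trace.re := by
  have hex : ∀ n : ℕ, ∃ p : Polynomial ℝ, ∀ y ∈ Icc (-(n : ℝ)) n,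
      |p.eval y - f y| < 1 / ((n : ℝ) + 1) := fun n =>
    exists_polynomial_near_of_continuousOn _ _ f hf.continuousOn _ (by positivity)
  choose p hp using hex
  refine measurable_of_tendsto_metrizable
    (f := fun (n : ℕ) x => ∑ i, (p n).eval ((hW x).eigenvalues i)) (fun n => ?_) ?_
  · have e : (fun x => ∑ i, (p n).eval ((hW x).eigenvalues i))
        = fun x => ∑ k ∈ Finset.range ((p n).natDegree + 1),
            (p n).coeff k * ∑ j, ((W x ^ k) j j).re := by
      funext x
      simp only [Polynomial.eval_eq_sum_range, Finset.mul_sum]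
      rw [Finset.sum_comm]
      refine Finset.sum_congr rfl fun k _ => ?_
      rw [← Finset.mul_sum, ← Finset.mul_sum, ← trace_pow_re (hW x) k, Matrix.trace,
        Complex.re_sum]
      rfl
    rw [e]
    exact Finset.measurable_sum _ fun k _ => (Finset.measurable_sum _ fun j _ =>
      Complex.measurable_re.comp (measurable_pow_entry hmeas k j j)).const_mul _
  · refine tendsto_pi_nhds.mpr fun x => ?_
    rw [trace_cfc_re (hW x)]
    refine tendsto_finsetSum _ fun i _ => ?_
    refine Metric.tendsto_atTop.mpr fun ε hε => ?_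
    obtain ⟨n0, hn0⟩ := exists_nat_gt (max (1 / ε) |(hW x).eigenvalues i|)
    refine ⟨n0, fun n hn => ?_⟩
    have hn' : (n0 : ℝ) ≤ n := by exact_mod_cast hn
    have h1 : |(hW x).eigenvalues i| ≤ n :=
      le_trans (le_trans (le_max_right _ _) hn0.le) hn'
    have h2 : (1 : ℝ) / ε ≤ n := le_trans (le_trans (le_max_left _ _) hn0.le) hn'
    have h3 : 1 / ((n : ℝ) + 1) < ε := by
      rw [div_lt_iff₀ (by positivity)]
      rw [div_le_iff₀ hε] at h2
      nlinarith
    rw [Real.dist_eq]
    exact lt_trans (hp n _ ⟨(abs_le.mp h1).1, (abs_le.mp h1).2⟩) h3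

lemma continuous_excess {W : Matrix (Fin m) (Fin m) ℂ} (hW : W.IsHermitian) :
    Continuous fun t => excess t W := by
  have e : (fun t => excess t W) = fun t => ∑ i, max (hW.eigenvalues i - t) 0 ^ (3 / 2 : ℝ) :=
    funext fun t => by rw [excess, trace_cfc_re hW]
  rw [e]
  exact continuous_finsetSum _ fun i _ =>
    ((continuous_const.sub continuous_id).max continuous_const).rpow_const fun _ => Or.inr (by norm_num)

lemma measurable_excess {W : ℝ → Matrix (Fin m) (Fin m) ℂ}
    (hW : ∀ x, (W x).IsHermitian) (hmeas : ∀ k l, Measurable fun x => W x k l) :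
    Measurable (Function.uncurry fun t x => excess t (W x)) :=
  measurable_uncurry_of_continuous_of_measurable
    (fun x => continuous_excess (hW x))
    (fun t => measurable_trace_cfc hW hmeas
      (((continuous_id.sub continuous_const).max continuous_const).rpow_const
        fun _ => Or.inr (by norm_num)))

lemma excess_le_power {W : Matrix (Fin m) (Fin m) ℂ} (hW : W.PosSemidef) {t γ : ℝ} (ht : 0 < t)
    (hγ : 1 < γ) :
    excess t W ≤ t ^ (1 - γ) * (cfc (fun w : ℝ => w ^ (γ + 1 / 2)) W).trace.re := by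
  rw [excess, trace_cfc_re hW.1, trace_cfc_re hW.1, Finset.mul_sum]
  refine Finset.sum_le_sum fun i _ => ?_
  set w := hW.1.eigenvalues i
  have hw : 0 ≤ w := hW.eigenvalues_nonneg i
  by_cases h : w ≤ t
  · rw [max_eq_right (by linarith), Real.zero_rpow (by norm_num)]
    positivity
  push Not at h
  rw [max_eq_left (by linarith)]
  calc (w - t) ^ (3 / 2 : ℝ) ≤ w ^ (3 / 2 : ℝ) :=
        Real.rpow_le_rpow (by linarith) (by linarith) (by norm_num)
    _ = w ^ (γ + 1 / 2) * w ^ (1 - γ) := by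
        rw [← Real.rpow_add (by linarith)]
        ring_nf
    _ ≤ w ^ (γ + 1 / 2) * t ^ (1 - γ) :=
        mul_le_mul_of_nonneg_left (Real.rpow_le_rpow_of_nonpos ht h.le (by linarith))
          (Real.rpow_nonneg hw _)
    _ = _ := mul_comm _ _

lemma integrable_excess {W : ℝ → Matrix (Fin m) (Fin m) ℂ} (hW : ∀ x, (W x).PosSemidef)
    (hmeas : ∀ k l, Measurable fun x => W x k l) {t γ : ℝ} (ht : 0 < t) (hγ : 1 < γ)
    (hint : Integrable fun x => (cfc (fun w : ℝ => w ^ (γ + 1 / 2)) (W x)).trace.re) :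
    Integrable fun x => excess t (W x) := by
  refine (hint.const_mul (t ^ (1 - γ))).mono'
    ((measurable_excess (fun x => (hW x).1) hmeas).comp measurable_prodMk_left).aestronglyMeasurable
    (Eventually.of_forall fun x => ?_)
  rw [Real.norm_eq_abs, abs_of_nonneg (excess_nonneg (hW x).1 t)]
  exact excess_le_power (hW x) ht hγ

/-- The positive parts of the energies above a level are bounded by the excess. -/
lemma sum_posPart_le {W : ℝ → Matrix (Fin m) (Fin m) ℂ} (hW : ∀ x, (W x).PosSemidef)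
    (hmeas : ∀ k l, Measurable fun x => W x k l)
    (u u' : Fin N → ℝ → EuclideanSpace ℂ (Fin m))
    (hd : ∀ i x, HasDerivAt (u i) (u' i x) x) (hc : ∀ i, Continuous (u' i))
    (h2 : ∀ i, MemLp (u i) 2) (h2' : ∀ i, MemLp (u' i) 2)
    (horth : ∀ i j, ∫ x, inner ℂ (u i x) (u j x) = if i = j then (1 : ℂ) else 0)
    {t : ℝ} (hexc : Integrable fun x => excess t (W x)) :
    ∑ i, max ((∫ x, quad (W x) (u i x)) - (∫ x, ‖u' i x‖ ^ 2) - t) 0
      ≤ ltOne * ∫ x, excess t (W x) := by
  classical
  set e : Fin N → ℝ := fun i => (∫ x, quad (W x) (u i x)) - (∫ x, ‖u' i x‖ ^ 2) - t with he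
  set S : Finset (Fin N) := Finset.univ.filter fun i => 0 < e i with hS
  set g : Fin S.card → Fin N := fun j => S.orderEmbOfFin rfl j with hg
  have hgi : Function.Injective g := (S.orderEmbOfFin rfl).injective
  have h := sum_sub_le hW hmeas (fun j => u (g j)) (fun j => u' (g j)) (fun j => hd (g j))
    (fun j => hc (g j)) (fun j => h2 (g j)) (fun j => h2' (g j))
    (fun i j => by simp only [horth, hgi.eq_iff]) hexc
  have hsum : ∑ j, e (g j) = ∑ i ∈ S, e i := by
    rw [← Finset.sum_image (f := e) (g := g) fun a _ b _ hab => hgi hab]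
    congr 1
    exact S.image_orderEmbOfFin_univ rfl
  calc ∑ i, max (e i) 0 = ∑ i ∈ S, e i := by
        rw [hS, Finset.sum_filter]
        refine Finset.sum_congr rfl fun i _ => ?_
        split_ifs with hi
        · exact max_eq_left hi.le
        · exact max_eq_right (not_lt.mp hi)
    _ ≤ _ := by rw [← hsum]; exact h

/-- **The lifted bound.** For `γ > 1` the ratio to the semiclassical constant is at most `2/√3`. -/
theorem lieb_thirring_lift {γ : ℝ} (hγ : 1 < γ) {W : ℝ → Matrix (Fin m) (Fin m) ℂ}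
    (hW : ∀ x, (W x).PosSemidef) (hmeas : ∀ k l, Measurable fun x => W x k l)
    (hint : Integrable fun x => (cfc (fun w : ℝ => w ^ (γ + 1 / 2)) (W x)).trace.re)
    (u u' : Fin N → ℝ → EuclideanSpace ℂ (Fin m))
    (hd : ∀ i x, HasDerivAt (u i) (u' i x) x) (hc : ∀ i, Continuous (u' i))
    (h2 : ∀ i, MemLp (u i) 2) (h2' : ∀ i, MemLp (u' i) 2)
    (horth : ∀ i j, ∫ x, inner ℂ (u i x) (u j x) = if i = j then (1 : ℂ) else 0) :
    ∑ i, max ((∫ x, quad (W x) (u i x)) - ∫ x, ‖u' i x‖ ^ 2) 0 ^ γ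
      ≤ (2 / Real.sqrt 3) * (Real.Gamma (γ + 1) / (2 * Real.sqrt Real.pi * Real.Gamma (γ + 3 / 2))) *
          ∫ x, (cfc (fun w : ℝ => w ^ (γ + 1 / 2)) (W x)).trace.re := by
  set a : ℝ := γ - 1 with ha_def
  have ha : 0 < a := by linarith
  set C1 : ℝ := Real.Gamma a * Real.Gamma ((1 : ℝ) + 1) / Real.Gamma (a + 1 + 1) with hC1
  set C2 : ℝ := Real.Gamma a * Real.Gamma (3 / 2 + 1) / Real.Gamma (a + 3 / 2 + 1) with hC2
  have hG := Real.Gamma_pos_of_pos ha
  have hC1p : 0 < C1 := by
    rw [hC1]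
    exact div_pos (mul_pos hG (Real.Gamma_pos_of_pos (by norm_num)))
      (Real.Gamma_pos_of_pos (by linarith))
  have hC2p : 0 < C2 := by
    rw [hC2]
    exact div_pos (mul_pos hG (Real.Gamma_pos_of_pos (by norm_num)))
      (Real.Gamma_pos_of_pos (by linarith))
  have hlt : 0 ≤ ltOne := by unfold ltOne; positivity
  set e : Fin N → ℝ := fun i => (∫ x, quad (W x) (u i x)) - ∫ x, ‖u' i x‖ ^ 2 with he
  set P : ℝ → ℝ := fun x => (cfc (fun w : ℝ => w ^ (γ + 1 / 2)) (W x)).trace.re with hP
  have hPnn : ∀ x, 0 ≤ P x := fun x => by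
    rw [hP]
    dsimp only
    rw [trace_cfc_re (hW x).1]
    exact Finset.sum_nonneg fun i _ => Real.rpow_nonneg ((hW x).eigenvalues_nonneg i) _
  have hexm : Measurable (Function.uncurry fun t x => excess t (W x)) :=
    measurable_excess (fun x => (hW x).1) hmeas
  have key : ∀ t : ℝ, 0 < t → ∑ i, t ^ (a - 1) * max (e i - t) 0 ^ (1 : ℝ)
      ≤ t ^ (a - 1) * (ltOne * ∫ x, excess t (W x)) := fun t ht => by
    rw [← Finset.mul_sum]
    refine mul_le_mul_of_nonneg_left ?_ (Real.rpow_nonneg ht.le _)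
    simp only [Real.rpow_one]
    exact sum_posPart_le hW hmeas u u' hd hc h2 h2' horth (integrable_excess hW hmeas ht hγ hint)
  have hlhs : ENNReal.ofReal (∑ i, max (e i) 0 ^ γ * C1)
      = ∫⁻ t in Ioi (0 : ℝ), ENNReal.ofReal (∑ i, t ^ (a - 1) * max (e i - t) 0 ^ (1 : ℝ)) := by
    rw [ENNReal.ofReal_sum_of_nonneg fun i _ =>
      mul_nonneg (Real.rpow_nonneg (le_max_right _ _) _) hC1p.le]
    have : ∀ i, ENNReal.ofReal (max (e i) 0 ^ γ * C1)
        = ∫⁻ t in Ioi (0 : ℝ), ENNReal.ofReal (t ^ (a - 1) * max (e i - t) 0 ^ (1 : ℝ)) :=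
      fun i => by rw [lintegral_layer ha one_pos, hC1, show a + 1 = γ by linarith]
    simp only [this]
    rw [← lintegral_finsetSum _ fun i _ => by fun_prop]
    refine setLIntegral_congr_fun measurableSet_Ioi fun t ht => ?_
    rw [mem_Ioi] at ht
    rw [← ENNReal.ofReal_sum_of_nonneg fun i _ => by positivity]
  have hswap : ∫⁻ t in Ioi (0 : ℝ), ENNReal.ofReal (t ^ (a - 1) * (ltOne * ∫ x, excess t (W x)))
      = ∫⁻ x, ∫⁻ t in Ioi (0 : ℝ), ENNReal.ofReal (t ^ (a - 1) * (ltOne * excess t (W x))) := by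
    rw [setLIntegral_congr_fun (g := fun t =>
      ∫⁻ x, ENNReal.ofReal (t ^ (a - 1) * (ltOne * excess t (W x)))) measurableSet_Ioi]
    · refine lintegral_lintegral_swap ?_
      refine (Measurable.ennreal_ofReal ?_).aemeasurable
      exact (measurable_fst.pow_const _).mul (hexm.const_mul _)
    · intro t ht
      rw [mem_Ioi] at ht
      have hi := integrable_excess hW hmeas ht hγ hint
      dsimp only
      rw [← integral_const_mul, ← integral_const_mul,
        ofReal_integral_eq_lintegral_ofReal ((hi.const_mul _).const_mul _)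
          (Eventually.of_forall fun x =>
            mul_nonneg (Real.rpow_nonneg ht.le _) (mul_nonneg hlt (excess_nonneg (hW x).1 t)))]
  have hinner : ∀ x, ∫⁻ t in Ioi (0 : ℝ), ENNReal.ofReal (t ^ (a - 1) * (ltOne * excess t (W x)))
      = ENNReal.ofReal (ltOne * C2 * P x) := by
    intro x
    set w := (hW x).1.eigenvalues with hw
    have e1 : ∀ t, excess t (W x) = ∑ k, max (w k - t) 0 ^ (3 / 2 : ℝ) := fun t => by
      rw [excess, trace_cfc_re (hW x).1]
    have e2 : ∀ k, ∫⁻ t in Ioi (0 : ℝ), ENNReal.ofReal (t ^ (a - 1) * max (w k - t) 0 ^ (3 / 2 : ℝ))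
        = ENNReal.ofReal (w k ^ (γ + 1 / 2) * C2) := fun k => by
      rw [lintegral_layer ha (by norm_num), hC2, max_eq_left ((hW x).eigenvalues_nonneg k),
        show a + 3 / 2 = γ + 1 / 2 by linarith]
    calc ∫⁻ t in Ioi (0 : ℝ), ENNReal.ofReal (t ^ (a - 1) * (ltOne * excess t (W x)))
        = ∫⁻ t in Ioi (0 : ℝ), ENNReal.ofReal ltOne *
            ∑ k, ENNReal.ofReal (t ^ (a - 1) * max (w k - t) 0 ^ (3 / 2 : ℝ)) := by
          refine setLIntegral_congr_fun measurableSet_Ioi fun t ht => ?_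
          rw [mem_Ioi] at ht
          rw [← ENNReal.ofReal_sum_of_nonneg fun k _ => by positivity, ← Finset.mul_sum,
            ← ENNReal.ofReal_mul hlt, e1, mul_left_comm]
      _ = ENNReal.ofReal ltOne * ∑ k, ENNReal.ofReal (w k ^ (γ + 1 / 2) * C2) := by
          rw [lintegral_const_mul' _ _ ENNReal.ofReal_ne_top,
            lintegral_finsetSum _ fun k _ => by fun_prop]
          simp only [e2]
      _ = _ := by
          rw [← ENNReal.ofReal_sum_of_nonneg fun k _ =>
            mul_nonneg (Real.rpow_nonneg ((hW x).eigenvalues_nonneg k) _) hC2p.le,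
            ← ENNReal.ofReal_mul hlt, ← Finset.sum_mul, hP]
          dsimp only
          rw [trace_cfc_re (hW x).1]
          ring_nf
  have main : ENNReal.ofReal (∑ i, max (e i) 0 ^ γ * C1)
      ≤ ENNReal.ofReal (ltOne * C2 * ∫ x, P x) := by
    rw [hlhs, ← integral_const_mul,
      ofReal_integral_eq_lintegral_ofReal (hint.const_mul _)
        (Eventually.of_forall fun x => mul_nonneg (mul_nonneg hlt hC2p.le) (hPnn x))]
    calc ∫⁻ t in Ioi (0 : ℝ), ENNReal.ofReal (∑ i, t ^ (a - 1) * max (e i - t) 0 ^ (1 : ℝ))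
        ≤ ∫⁻ t in Ioi (0 : ℝ), ENNReal.ofReal (t ^ (a - 1) * (ltOne * ∫ x, excess t (W x))) := by
          refine lintegral_mono_ae ?_
          filter_upwards [ae_restrict_mem measurableSet_Ioi] with t ht
          exact ENNReal.ofReal_le_ofReal (key t ht)
      _ = _ := by
          rw [hswap]
          simp only [hinner]
  have hfin := (ENNReal.ofReal_le_ofReal_iff (mul_nonneg (mul_nonneg hlt hC2p.le)
    (integral_nonneg hPnn))).mp main
  rw [← Finset.sum_mul, ← le_div_iff₀ hC1p] at hfin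
  refine hfin.trans (le_of_eq ?_)
  have hG2 : Real.Gamma ((1 : ℝ) + 1) = 1 := by
    rw [Real.Gamma_add_one one_ne_zero, Real.Gamma_one, one_mul]
  have hG52 : Real.Gamma (3 / 2 + 1) = 3 * Real.sqrt Real.pi / 4 := by
    rw [Real.Gamma_add_one (by norm_num), show (3 / 2 : ℝ) = 1 / 2 + 1 by norm_num,
      Real.Gamma_add_one (by norm_num), Real.Gamma_one_half_eq]
    ring
  have hg1 : a + 1 + 1 = γ + 1 := by linarith
  have hg2 : a + 3 / 2 + 1 = γ + 3 / 2 := by linarith
  rw [hC1, hC2, hG2, hG52, hg1, hg2, ltOne]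
  have hp1 := (Real.Gamma_pos_of_pos (by linarith : 0 < γ + 1)).ne'
  have hp2 := (Real.Gamma_pos_of_pos (by linarith : 0 < γ + 3 / 2)).ne'
  have hp3 := hG.ne'
  have hs : Real.sqrt Real.pi * Real.sqrt Real.pi = Real.pi := Real.mul_self_sqrt Real.pi_pos.le
  field_simp
  ring_nf
  rw [show Real.sqrt Real.pi ^ 2 = Real.pi by rw [sq, hs]]
  ring

end Vale.Agent.P371
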