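import Vale.Agent.P371.Words
import Vale.Agent.P371.Cubic

/-!
The pointwise calibration inequality.
-/

open Matrix Filter Topology Set Real
open scoped ComplexOrder

namespace Vale.Agent.P371

/-- The calibration profile. -/
noncomputable def gCot (s : ℝ) : ℝ := π / 4 * (Real.cos (π * s / 2) / Real.sin (π * s / 2))

/-- Divided difference of `gCot`. -/
noncomputable def gCotD (a b : ℝ) : ℝ :=
  -(π ^ 2 / 8) * (Real.sinc (π * (a - b) / 2) / (Real.sin (π * a / 2) * Real.sin (π * b / 2)))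

lemma sin_half_pos {s : ℝ} (hs : s ∈ Ioo (0 : ℝ) 2) : 0 < Real.sin (π * s / 2) := by
  refine Real.sin_pos_of_pos_of_lt_pi (by have := Real.pi_pos; have := hs.1; positivity) ?_
  nlinarith [Real.pi_pos, hs.2]

lemma hasDerivAt_gCot {s : ℝ} (hs : s ∈ Ioo (0 : ℝ) 2) : HasDerivAt gCot (gCotD s s) s := by
  have h0 : HasDerivAt (fun t : ℝ => π * t / 2) (π / 2) s := by
    simpa using ((hasDerivAt_id s).const_mul π).div_const 2
  have hne := (sin_half_pos hs).ne'
  have h := (h0.cos.div h0.sin hne).const_mul (π / 4)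
  refine h.congr_deriv ?_
  simp only [gCotD, sub_self, mul_zero, zero_div, Real.sinc_zero]
  field_simp
  linear_combination (-8 : ℝ) * Real.sin_sq_add_cos_sq (π * s / 2)

lemma gCot_sub {a b : ℝ} (ha : a ∈ Ioo (0 : ℝ) 2) (hb : b ∈ Ioo (0 : ℝ) 2) :
    gCot a - gCot b = (a - b) * gCotD a b := by
  have h1 := (sin_half_pos ha).ne'
  have h2 := (sin_half_pos hb).ne'
  by_cases h : a = b
  · simp [h]
  · have hd : π * (a - b) / 2 ≠ 0 := by simp [sub_ne_zero.2 h, Real.pi_ne_zero]
    rw [gCot, gCot, gCotD, Real.sinc_of_ne_zero hd,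
      show π * (a - b) / 2 = π * a / 2 - π * b / 2 by ring, Real.sin_sub]
    have h3 : a - b ≠ 0 := sub_ne_zero.2 h
    rw [show π * a / 2 - π * b / 2 = π * (a - b) / 2 by ring]
    field_simp
    ring

/-- `p` is `η`-close to `gCot` in `C¹` on `[δ, 2 - δ]`. -/
def CloseOn (p : Polynomial ℝ) (η δ : ℝ) : Prop :=
  ∀ s ∈ Icc δ (2 - δ), |p.eval s - gCot s| ≤ η ∧ |p.derivative.eval s - gCotD s s| ≤ η

lemma CloseOn.dd {p : Polynomial ℝ} {η δ : ℝ} (hp : CloseOn p η δ) (hδ : 0 < δ) {a b : ℝ}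
    (ha : a ∈ Icc δ (2 - δ)) (hb : b ∈ Icc δ (2 - δ)) : |polyDD p a b - gCotD a b| ≤ η := by
  have hsub : ∀ s ∈ Icc δ (2 - δ), s ∈ Ioo (0 : ℝ) 2 := fun s hs =>
    ⟨lt_of_lt_of_le hδ hs.1, by linarith [hs.2]⟩
  by_cases h : a = b
  · subst h
    rw [polyDD_self]
    exact (hp a ha).2
  · have hbd := (convex_Icc δ (2 - δ)).norm_image_sub_le_of_norm_hasDerivWithin_le
      (f := fun s => p.eval s - gCot s) (f' := fun s => p.derivative.eval s - gCotD s s) (C := η)
      (fun s hs => ((p.hasDerivAt s).sub (hasDerivAt_gCot (hsub s hs))).hasDerivWithinAt)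
      (fun s hs => by simpa [Real.norm_eq_abs] using (hp s hs).2) hb ha
    simp only [Real.norm_eq_abs] at hbd
    have e : p.eval a - gCot a - (p.eval b - gCot b) = (a - b) * (polyDD p a b - gCotD a b) := by
      rw [mul_sub, polyDD_mul_sub, ← gCot_sub (hsub a ha) (hsub b hb)]
      ring
    rw [e, abs_mul, mul_comm η] at hbd
    exact le_of_mul_le_mul_left hbd (abs_pos.2 (sub_ne_zero.2 h))

lemma exists_antiderivative (q : Polynomial ℝ) : ∃ r : Polynomial ℝ, r.derivative = q := by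
  induction q using Polynomial.induction_on' with
  | add p q hp hq =>
    obtain ⟨a, ha⟩ := hp
    obtain ⟨b, hb⟩ := hq
    exact ⟨a + b, by rw [Polynomial.derivative_add, ha, hb]⟩
  | monomial k c =>
    refine ⟨Polynomial.monomial (k + 1) (c / (k + 1)), ?_⟩
    rw [Polynomial.derivative_monomial]
    simp only [Nat.add_sub_cancel]
    congr 1
    push_cast
    field_simp

lemma exists_closeOn {η δ : ℝ} (hη : 0 < η) (hδ : 0 < δ) (hδ1 : δ ≤ 1) :
    ∃ p : Polynomial ℝ, CloseOn p η δ := by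
  have hsub : ∀ s ∈ Icc δ (2 - δ), s ∈ Ioo (0 : ℝ) 2 := fun s hs =>
    ⟨lt_of_lt_of_le hδ hs.1, by linarith [hs.2]⟩
  have hc : ContinuousOn (fun s => gCotD s s) (Icc δ (2 - δ)) := by
    simp only [gCotD, sub_self, mul_zero, zero_div, Real.sinc_zero]
    refine ContinuousOn.mul continuousOn_const (ContinuousOn.div continuousOn_const ?_ ?_)
    · fun_prop
    · intro s hs
      exact mul_ne_zero (sin_half_pos (hsub s hs)).ne' (sin_half_pos (hsub s hs)).ne'
  obtain ⟨q, hq⟩ := exists_polynomial_near_of_continuousOn δ (2 - δ) _ hc (η / 2) (by positivity)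
  obtain ⟨r, hr⟩ := exists_antiderivative q
  refine ⟨r + Polynomial.C (gCot δ - r.eval δ), fun s hs => ?_⟩
  have hd : ∀ t ∈ Icc δ (2 - δ), |q.eval t - gCotD t t| ≤ η / 2 := fun t ht => (hq t ht).le
  refine ⟨?_, by simp [hr]; linarith [hd s hs]⟩
  have hbd := (convex_Icc δ (2 - δ)).norm_image_sub_le_of_norm_hasDerivWithin_le
      (f := fun s => r.eval s - gCot s) (f' := fun s => q.eval s - gCotD s s) (C := η / 2)
      (fun t ht => ((hr ▸ r.hasDerivAt t).sub (hasDerivAt_gCot (hsub t ht))).hasDerivWithinAt)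
      (fun t ht => by simpa [Real.norm_eq_abs] using hd t ht)
      (left_mem_Icc.2 (by linarith)) hs
  simp only [Real.norm_eq_abs] at hbd
  have h2 : |s - δ| ≤ 2 := by rw [abs_le]; constructor <;> linarith [hs.1, hs.2]
  simp only [Polynomial.eval_add, Polynomial.eval_C]
  rw [show r.eval s + (gCot δ - r.eval δ) - gCot s = r.eval s - gCot s - (r.eval δ - gCot δ) by ring]
  nlinarith [abs_nonneg (s - δ)]

lemma sum3_rotate {n : ℕ} (F : Fin n → Fin n → Fin n → ℝ) :
    ∑ i, ∑ j, ∑ l, F i j l = ∑ i, ∑ j, ∑ l, F l i j := by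
  calc ∑ i, ∑ j, ∑ l, F i j l = ∑ j, ∑ i, ∑ l, F i j l := Finset.sum_comm
    _ = ∑ j, ∑ l, ∑ i, F i j l := Finset.sum_congr rfl fun _ _ => Finset.sum_comm

variable {n : ℕ} {E : Type*} [NormedAddCommGroup E] [InnerProductSpace ℂ E]

/-- Derivative of the Gram matrix along velocities `b`. -/
noncomputable def gramD (a b : Fin n → E) : Matrix (Fin n) (Fin n) ℂ :=
  Matrix.of fun i j => inner ℂ (b i) (a j) + inner ℂ (a i) (b j)

lemma cubeTrace_eq (B : Matrix (Fin n) (Fin n) ℂ) :
    cubeTrace B = ∑ i, ∑ j, ∑ l, (B i j * B j l * B l i).re := by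
  simp only [cubeTrace, Matrix.trace, Matrix.diag, Matrix.mul_apply, Complex.re_sum, Finset.sum_mul]
  refine Finset.sum_congr rfl fun i _ => ?_
  exact Finset.sum_comm

lemma phiPolyD_diagonal (p : Polynomial ℝ) (m : Fin n → ℝ) (B B' : Matrix (Fin n) (Fin n) ℂ) :
    phiPolyD p (Matrix.diagonal fun i => (m i : ℂ)) B B B' =
      2 * ∑ i, ∑ j, p.eval (m i + m j) * (B' i j * B j i).re +
        2 * ∑ i, ∑ j, ∑ l, polyDD p (m i + m l) (m j + m l) * (B i j * B j l * B l i).re := by
  have hk : ∀ k, (B' * iterY (Matrix.diagonal fun i => (m i : ℂ)) B k).trace.re +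
      (B * iterD (Matrix.diagonal fun i => (m i : ℂ)) B B B' k).trace.re =
      2 * ∑ i, ∑ j, (m i + m j) ^ k * (B' i j * B j i).re +
        2 * ∑ i, ∑ j, ∑ l, powDD k (m i + m l) (m j + m l) * (B i j * B j l * B l i).re := by
    intro k
    simp only [Matrix.trace, Matrix.diag, Matrix.mul_apply, iterY_diagonal, iterD_diagonal,
      Complex.re_sum, mul_add, Complex.add_re, Finset.mul_sum, Finset.sum_add_distrib,
      Complex.ofReal_add, add_mul]
    have e1 : ∀ i j, (B' i j * ((((m j + m i) ^ k : ℝ) : ℂ) * B j i)).re =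
        (m i + m j) ^ k * (B' i j * B j i).re := fun i j => by
      rw [add_comm (m j), mul_left_comm, Complex.re_ofReal_mul]
    have e2 : ∑ i, ∑ j, (B i j * ((((m j + m i) ^ k : ℝ) : ℂ) * B' j i)).re =
        ∑ i, ∑ j, (m i + m j) ^ k * (B' i j * B j i).re := by
      rw [Finset.sum_comm]
      refine Finset.sum_congr rfl fun i _ => Finset.sum_congr rfl fun j _ => ?_
      rw [mul_left_comm, Complex.re_ofReal_mul, mul_comm (B j i)]
    have e3 : ∑ i, ∑ j, ∑ l,
        (B i j * ((powDD k (m j + m i) (m l + m i) : ℂ) * (B j l * B l i))).re =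
        ∑ i, ∑ j, ∑ l, powDD k (m i + m l) (m j + m l) * (B i j * B j l * B l i).re := by
      rw [sum3_rotate]
      refine Finset.sum_congr rfl fun i _ => Finset.sum_congr rfl fun j _ =>
        Finset.sum_congr rfl fun l _ => ?_
      rw [mul_left_comm, Complex.re_ofReal_mul,
        show B l i * (B i j * B j l) = B i j * B j l * B l i by ring]
    have e4 : ∑ i, ∑ j, ∑ l,
        (B i j * ((powDD k (m j + m i) (m j + m l) : ℂ) * (B j l * B l i))).re =
        ∑ i, ∑ j, ∑ l, powDD k (m i + m l) (m j + m l) * (B i j * B j l * B l i).re := by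
      rw [sum3_rotate, sum3_rotate]
      refine Finset.sum_congr rfl fun i _ => Finset.sum_congr rfl fun j _ =>
        Finset.sum_congr rfl fun l _ => ?_
      rw [mul_left_comm, Complex.re_ofReal_mul, powDD_comm, add_comm (m l) (m i), add_comm (m l) (m j),
        show B j l * (B l i * B i j) = B i j * B j l * B l i by ring]
    simp only [e1, e2, e3, e4]
    simp only [two_mul, Finset.sum_add_distrib]
    ring
  simp only [phiPolyD, hk, polyDD, Polynomial.eval_eq_sum, Polynomial.sum_def, Finset.sum_mul,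
    Finset.mul_sum]
  rw [← sub_eq_zero]
  simp only [mul_add, Finset.sum_add_distrib, Finset.mul_sum]
  rw [Finset.sum_comm (s := p.support), Finset.sum_comm (s := p.support)]
  simp only [Finset.sum_comm (s := p.support)]
  rw [sub_eq_zero]
  congr 1 <;> (simp only [mul_left_comm, mul_assoc])

lemma re_gramD_le (a b : Fin n → E) (F : Fin n → Fin n → ℝ) (hF : ∀ i j, F i j = F j i) :
    2 * ∑ i, ∑ j, F i j * (gramD a b i j * Matrix.gram ℂ a j i).re ≤
      (∑ i, ‖b i‖ ^ 2) + 4 * ∑ i, ∑ j, ∑ l, F i l * F j l *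
        (Matrix.gram ℂ a i j * Matrix.gram ℂ a j l * Matrix.gram ℂ a l i).re := by
  set B := Matrix.gram ℂ a with hB
  have hBs : ∀ i j, (starRingEnd ℂ) (B i j) = B j i := fun i j => by
    simp [hB, Matrix.gram_apply]
  let q : Fin n → E := fun j => ∑ i, ((F i j : ℂ) * B i j) • a i
  have h1 : 2 * ∑ i, ∑ j, F i j * (gramD a b i j * B j i).re = 4 * ∑ j, (inner ℂ (q j) (b j)).re := by
    have e : ∀ i j, F i j * (gramD a b i j * B j i).re =
        F j i * (inner ℂ (a j) (b i) * B i j).re + F i j * (inner ℂ (a i) (b j) * B j i).re := by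
      intro i j
      simp only [gramD, Matrix.of_apply, add_mul, Complex.add_re, mul_add]
      congr 1
      rw [hF i j, ← Complex.conj_re, map_mul, hBs, inner_conj_symm]
    simp only [e, Finset.sum_add_distrib]
    rw [Finset.sum_comm]
    simp only [q, sum_inner, inner_smul_left, Complex.re_sum, map_mul, Complex.conj_ofReal, hBs]
    rw [Finset.sum_comm (f := fun i j => ((F j i : ℂ) * B i j * inner ℂ (a j) (b i)).re)]
    simp only [mul_assoc, Complex.re_ofReal_mul]
    simp only [mul_comm (inner ℂ _ _)]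
    rw [Finset.sum_comm]
    ring
  have h2 : ∑ j, ‖q j‖ ^ 2 = ∑ i, ∑ j, ∑ l, F i l * F j l * (B i j * B j l * B l i).re := by
    have e : ∀ l, ‖q l‖ ^ 2 = ∑ i, ∑ j, F i l * F j l * (B i j * B j l * B l i).re := by
      intro l
      rw [← inner_self_eq_norm_sq (𝕜 := ℂ)]
      simp only [q, sum_inner, inner_sum, inner_smul_left, inner_smul_right, map_mul,
        Complex.conj_ofReal, hBs, RCLike.re_to_complex, Finset.mul_sum, Complex.re_sum]
      rw [Finset.sum_comm]
      refine Finset.sum_congr rfl fun i _ => Finset.sum_congr rfl fun j _ => ?_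
      rw [show ((F j l : ℂ) * B j l * ((F i l : ℂ) * B l i * inner ℂ (a i) (a j))) =
        ((F i l * F j l : ℝ) : ℂ) * (B i j * B j l * B l i) by
          simp only [hB, Matrix.gram_apply]; push_cast; ring, Complex.re_ofReal_mul]
    simp only [e]
    rw [Finset.sum_comm]
    exact Finset.sum_congr rfl fun i _ => Finset.sum_comm
  rw [h1]
  have h3 : ∀ j, 4 * (inner ℂ (q j) (b j)).re ≤ ‖b j‖ ^ 2 + 4 * ‖q j‖ ^ 2 := by
    intro j
    have := (Complex.re_le_norm (inner ℂ (q j) (b j))).trans (norm_inner_le_norm (𝕜 := ℂ) (q j) (b j))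
    nlinarith [sq_nonneg (‖b j‖ - 2 * ‖q j‖)]
  rw [Finset.mul_sum, ← h2, Finset.mul_sum, ← Finset.sum_add_distrib]
  exact Finset.sum_le_sum fun j _ => h3 j

lemma abs_triple_le (a : Fin n → E) (i j l : Fin n) :
    |(Matrix.gram ℂ a i j * Matrix.gram ℂ a j l * Matrix.gram ℂ a l i).re| ≤
      (∑ i, ‖a i‖ ^ 2) ^ 3 := by
  refine (Complex.abs_re_le_norm _).trans ?_
  simp only [norm_mul, Matrix.gram_apply]
  have h : ∀ i j, ‖inner ℂ (a i) (a j)‖ ≤ ∑ i, ‖a i‖ ^ 2 := by
    intro i j
    have h1 := Finset.single_le_sum (f := fun i => ‖a i‖ ^ 2) (fun _ _ => sq_nonneg _)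
      (Finset.mem_univ i)
    have h2 := Finset.single_le_sum (f := fun i => ‖a i‖ ^ 2) (fun _ _ => sq_nonneg _)
      (Finset.mem_univ j)
    refine (norm_inner_le_norm (a i) (a j)).trans ?_
    nlinarith [sq_nonneg (‖a i‖ - ‖a j‖)]
  rw [pow_three, ← mul_assoc]
  gcongr <;> apply h

lemma calibration_diagonal {η ε G : ℝ} (hη : 0 ≤ η) (hη1 : η ≤ 1) (hε : 0 < ε) {p : Polynomial ℝ}
    (hp : CloseOn p η (2 * ε)) (hG : ∀ s ∈ Icc (2 * ε) (2 - 2 * ε), |gCot s| ≤ G)
    (m : Fin n → ℝ) (hm : ∀ i, m i ∈ Icc ε (1 - ε)) (a b : Fin n → E) :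
    phiPolyD p (Matrix.diagonal fun i => (m i : ℂ)) (Matrix.gram ℂ a) (Matrix.gram ℂ a) (gramD a b) ≤
      (∑ i, ‖b i‖ ^ 2) - π ^ 2 / 4 * cubeTrace (Matrix.gram ℂ a) +
        η * (2 + 4 * (2 * G + 1)) * n ^ 3 * (∑ i, ‖a i‖ ^ 2) ^ 3 := by
  set B := Matrix.gram ℂ a with hB
  set α : Fin n → ℝ := fun i => π * m i / 2 with hα
  have hσ : ∀ i j, m i + m j ∈ Icc (2 * ε) (2 - 2 * ε) := fun i j => by
    obtain ⟨h1, h2⟩ := hm i
    obtain ⟨h3, h4⟩ := hm j
    constructor <;> linarith
  have hαm : ∀ i, α i ∈ Ioo 0 (π / 2) := fun i => by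
    obtain ⟨h1, h2⟩ := hm i
    constructor <;> simp only [hα] <;> nlinarith [Real.pi_pos]
  have hcub := cubic_nonneg α hαm (Matrix.posSemidef_gram ℂ a)
  rw [phiPolyD_diagonal]
  have hq := re_gramD_le a b (fun i j => p.eval (m i + m j)) fun i j => by rw [add_comm]
  have hcalc : 2 * ∑ i, ∑ j, ∑ l, polyDD p (m i + m l) (m j + m l) * (B i j * B j l * B l i).re +
      4 * ∑ i, ∑ j, ∑ l, p.eval (m i + m l) * p.eval (m j + m l) * (B i j * B j l * B l i).re +
      π ^ 2 / 4 * cubeTrace B ≤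
      ∑ i, ∑ j, ∑ l, (-(π ^ 2 / 4) * (hker (α i - α j) / (Real.sin (α i + α l) *
        Real.sin (α j + α l)) * (B i j * B j l * B l i).re) +
        η * (2 + 4 * (2 * G + 1)) * (∑ i, ‖a i‖ ^ 2) ^ 3) := by
    rw [cubeTrace_eq]
    simp only [Finset.mul_sum, ← Finset.sum_add_distrib]
    refine Finset.sum_le_sum fun i _ => Finset.sum_le_sum fun j _ => Finset.sum_le_sum fun l _ => ?_
    set u := m i + m l with hu
    set w := m j + m l with hw
    set T := (B i j * B j l * B l i).re with hT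
    have hTb : |T| ≤ (∑ i, ‖a i‖ ^ 2) ^ 3 := abs_triple_le a i j l
    have hu' := hσ i l
    have hw' := hσ j l
    have s1 : Real.sin (π * u / 2) ≠ 0 := (sin_half_pos ⟨by linarith [hu'.1], by linarith [hu'.2]⟩).ne'
    have s2 : Real.sin (π * w / 2) ≠ 0 := (sin_half_pos ⟨by linarith [hw'.1], by linarith [hw'.2]⟩).ne'
    have d1 := abs_le.1 (hp.dd (by linarith) hu' hw')
    have d2 := abs_le.1 (hp u hu').1
    have d3 := abs_le.1 (hp w hw').1
    have g2 := abs_le.1 (hG u hu')
    have g3 := abs_le.1 (hG w hw')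
    have hG0 : 0 ≤ G := (abs_nonneg _).trans (hG u hu')
    have key : 2 * gCotD u w + 4 * (gCot u * gCot w) + π ^ 2 / 4 =
        -(π ^ 2 / 4) * (hker (α i - α j) / (Real.sin (α i + α l) * Real.sin (α j + α l))) := by
      have a1 : α i + α l = π * u / 2 := by simp only [hα, hu]; ring
      have a2 : α j + α l = π * w / 2 := by simp only [hα, hw]; ring
      have a3 : α i - α j = π * (u - w) / 2 := by simp only [hα, hu, hw]; ring
      have a4 : π * (u - w) / 2 = π * u / 2 - π * w / 2 := by ring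
      rw [a1, a2, a3, gCotD, gCot, gCot, hker,
        show Real.cos (π * (u - w) / 2) = Real.cos (π * u / 2) * Real.cos (π * w / 2) +
          Real.sin (π * u / 2) * Real.sin (π * w / 2) by rw [a4, Real.cos_sub]]
      field_simp
      ring
    have hprod : |p.eval u * p.eval w - gCot u * gCot w| ≤ η * (2 * G + 1) := by
      have e : p.eval u * p.eval w - gCot u * gCot w =
          (p.eval u - gCot u) * gCot w + gCot u * (p.eval w - gCot w) +
            (p.eval u - gCot u) * (p.eval w - gCot w) := by ring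
      rw [e]
      refine (abs_add_three _ _ _).trans ?_
      rw [abs_mul, abs_mul, abs_mul]
      have e1 : |p.eval u - gCot u| * |gCot w| ≤ η * G :=
        mul_le_mul (hp u hu').1 (hG w hw') (abs_nonneg _) hη
      have e2 : |gCot u| * |p.eval w - gCot w| ≤ G * η :=
        mul_le_mul (hG u hu') (hp w hw').1 (abs_nonneg _) hG0
      have e3 : |p.eval u - gCot u| * |p.eval w - gCot w| ≤ η * 1 :=
        mul_le_mul (hp u hu').1 ((hp w hw').1.trans hη1) (abs_nonneg _) hη
      linarith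
    set c := 2 * polyDD p u w + 4 * (p.eval u * p.eval w) + π ^ 2 / 4 -
      (-(π ^ 2 / 4) * (hker (α i - α j) / (Real.sin (α i + α l) * Real.sin (α j + α l)))) with hc
    have hcb : |c| ≤ η * (2 + 4 * (2 * G + 1)) := by
      rw [hc, ← key, abs_le]
      obtain ⟨p1, p2⟩ := abs_le.1 hprod
      constructor <;> linarith [d1.1, d1.2]
    have := (le_abs_self (c * T)).trans ((abs_mul c T).le.trans
      (mul_le_mul hcb hTb (abs_nonneg _) (by positivity)))
    rw [hc] at this
    linear_combination this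
  simp only [Finset.sum_add_distrib, Finset.sum_const, Finset.card_univ, Fintype.card_fin,
    nsmul_eq_mul] at hcalc
  have hneg : ∑ i, ∑ j, ∑ l, (-(π ^ 2 / 4) * (hker (α i - α j) / (Real.sin (α i + α l) *
      Real.sin (α j + α l)) * (B i j * B j l * B l i).re)) ≤ 0 := by
    simp only [← Finset.mul_sum]
    exact mul_nonpos_of_nonpos_of_nonneg (by nlinarith [Real.pi_pos]) hcub
  linarith

end Vale.Agent.P371
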