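import Vale.Agent.P371.Defs

/-!
Iterates of `Y ↦ M Y + Y M`, their derivatives along a curve, and their form in an eigenbasis.
-/

open Matrix Filter Topology

namespace Vale.Agent.P371

variable {n : ℕ}

/-- Iterates of `Y ↦ M Y + Y M` at `B`. -/
noncomputable def iterY (M B : Matrix (Fin n) (Fin n) ℂ) : ℕ → Matrix (Fin n) (Fin n) ℂ
  | 0 => B
  | k + 1 => M * iterY M B k + iterY M B k * M

/-- The derivative of `iterY` along a curve with velocities `(W, B')`. -/
noncomputable def iterD (M W B B' : Matrix (Fin n) (Fin n) ℂ) : ℕ → Matrix (Fin n) (Fin n) ℂ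
  | 0 => B'
  | k + 1 => W * iterY M B k + iterY M B k * W + (M * iterD M W B B' k + iterD M W B B' k * M)

/-- `(a^k - b^k)/(a - b)`. -/
def powDD : ℕ → ℝ → ℝ → ℝ
  | 0, _, _ => 0
  | k + 1, a, b => b ^ k + a * powDD k a b

lemma powDD_mul_sub (k : ℕ) (a b : ℝ) : (a - b) * powDD k a b = a ^ k - b ^ k := by
  induction k with
  | zero => simp [powDD]
  | succ k ih => simp only [powDD, mul_add, mul_left_comm (a - b) a, ih]; ring

lemma powDD_self (k : ℕ) (a : ℝ) : powDD k a a = k * a ^ (k - 1) := by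
  induction k with
  | zero => simp [powDD]
  | succ k ih =>
    rcases k with _ | k
    · simp [powDD]
    · simp only [powDD] at ih ⊢
      rw [ih]
      simp only [Nat.add_sub_cancel]
      push_cast
      ring

lemma powDD_comm (k : ℕ) (a b : ℝ) : powDD k a b = powDD k b a := by
  by_cases h : a = b
  · rw [h]
  · have h1 := powDD_mul_sub k a b
    have h2 := powDD_mul_sub k b a
    have h3 : a - b ≠ 0 := sub_ne_zero.2 h
    apply mul_left_cancel₀ h3
    linarith

/-- Divided difference of a polynomial. -/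
noncomputable def polyDD (p : Polynomial ℝ) (a b : ℝ) : ℝ := p.sum fun k c => c * powDD k a b

lemma polyDD_comm (p : Polynomial ℝ) (a b : ℝ) : polyDD p a b = polyDD p b a := by
  simp only [polyDD, powDD_comm]

lemma polyDD_mul_sub (p : Polynomial ℝ) (a b : ℝ) :
    (a - b) * polyDD p a b = p.eval a - p.eval b := by
  simp only [polyDD, Polynomial.eval_eq_sum, Polynomial.sum_def, Finset.mul_sum,
    ← Finset.sum_sub_distrib]
  refine Finset.sum_congr rfl fun k _ => ?_
  rw [mul_left_comm, powDD_mul_sub, mul_sub]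

lemma polyDD_self (p : Polynomial ℝ) (a : ℝ) : polyDD p a a = p.derivative.eval a := by
  rw [Polynomial.derivative_eval]
  simp only [polyDD, powDD_self, Polynomial.sum_def]
  exact Finset.sum_congr rfl fun k _ => by ring

/-- The trace functional `tr (B · f(L_M) B)`. -/
noncomputable def phiPoly (p : Polynomial ℝ) (M B : Matrix (Fin n) (Fin n) ℂ) : ℝ :=
  p.sum fun k c => c * (B * iterY M B k).trace.re

/-- Its derivative along a curve. -/
noncomputable def phiPolyD (p : Polynomial ℝ) (M W B B' : Matrix (Fin n) (Fin n) ℂ) : ℝ :=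
  p.sum fun k c => c * ((B' * iterY M B k).trace.re + (B * iterD M W B B' k).trace.re)

/-! ### Derivatives, entry by entry -/

/-- Entrywise derivative of a matrix curve. -/
def MDeriv (F : ℝ → Matrix (Fin n) (Fin n) ℂ) (F' : Matrix (Fin n) (Fin n) ℂ) (x : ℝ) : Prop :=
  ∀ i j, HasDerivAt (fun t => F t i j) (F' i j) x

lemma MDeriv.add {F G : ℝ → Matrix (Fin n) (Fin n) ℂ} {F' G' : Matrix (Fin n) (Fin n) ℂ} {x : ℝ}
    (hF : MDeriv F F' x) (hG : MDeriv G G' x) : MDeriv (fun t => F t + G t) (F' + G') x :=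
  fun i j => (hF i j).add (hG i j)

lemma MDeriv.mul {F G : ℝ → Matrix (Fin n) (Fin n) ℂ} {F' G' : Matrix (Fin n) (Fin n) ℂ} {x : ℝ}
    (hF : MDeriv F F' x) (hG : MDeriv G G' x) :
    MDeriv (fun t => F t * G t) (F' * G x + F x * G') x := by
  intro i j
  simp only [Matrix.mul_apply, Matrix.add_apply, ← Finset.sum_add_distrib]
  exact HasDerivAt.fun_sum fun l _ => (hF i l).mul (hG l j)

lemma MDeriv.trace_re {F : ℝ → Matrix (Fin n) (Fin n) ℂ} {F' : Matrix (Fin n) (Fin n) ℂ} {x : ℝ}
    (hF : MDeriv F F' x) : HasDerivAt (fun t => (F t).trace.re) F'.trace.re x := by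
  have h : HasDerivAt (fun t => (F t).trace) F'.trace x := by
    simp only [Matrix.trace, Matrix.diag]
    exact HasDerivAt.fun_sum fun l _ => hF l l
  exact Complex.reCLM.hasFDerivAt.comp_hasDerivAt x h

lemma mderiv_iterY {M B : ℝ → Matrix (Fin n) (Fin n) ℂ} {W B' : Matrix (Fin n) (Fin n) ℂ} {x : ℝ}
    (hM : MDeriv M W x) (hB : MDeriv B B' x) (k : ℕ) :
    MDeriv (fun t => iterY (M t) (B t) k) (iterD (M x) W (B x) B' k) x := by
  induction k with
  | zero => exact hB
  | succ k ih =>
    have h := (hM.mul ih).add (ih.mul hM)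
    simp only [iterY, iterD]
    convert h using 1
    abel

lemma hasDerivAt_phiPoly (p : Polynomial ℝ) {M B : ℝ → Matrix (Fin n) (Fin n) ℂ}
    {W B' : Matrix (Fin n) (Fin n) ℂ} {x : ℝ} (hM : MDeriv M W x) (hB : MDeriv B B' x) :
    HasDerivAt (fun t => phiPoly p (M t) (B t)) (phiPolyD p (M x) W (B x) B') x := by
  simp only [phiPoly, phiPolyD, Polynomial.sum_def]
  refine HasDerivAt.fun_sum fun k _ => ?_
  have h := ((hB.mul (mderiv_iterY hM hB k)).trace_re).const_mul (p.coeff k)
  rwa [Matrix.trace_add, Complex.add_re] at h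

/-! ### Unitary covariance -/

variable {U V : Matrix (Fin n) (Fin n) ℂ}

lemma conj_mul (h : U * V = 1) (X Y : Matrix (Fin n) (Fin n) ℂ) :
    (V * X * U) * (V * Y * U) = V * (X * Y) * U := by
  calc (V * X * U) * (V * Y * U) = V * X * (U * V) * (Y * U) := by simp only [mul_assoc]
    _ = V * (X * Y) * U := by rw [h, mul_one]; simp only [mul_assoc]

lemma iterY_conj (h : U * V = 1) (M B : Matrix (Fin n) (Fin n) ℂ) (k : ℕ) :
    iterY (V * M * U) (V * B * U) k = V * iterY M B k * U := by
  induction k with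
  | zero => rfl
  | succ k ih =>
    simp only [iterY, ih, conj_mul h]
    simp only [mul_add, add_mul]

lemma iterD_conj (h : U * V = 1) (M W B B' : Matrix (Fin n) (Fin n) ℂ) (k : ℕ) :
    iterD (V * M * U) (V * W * U) (V * B * U) (V * B' * U) k = V * iterD M W B B' k * U := by
  induction k with
  | zero => rfl
  | succ k ih =>
    simp only [iterD, ih, iterY_conj h, conj_mul h]
    simp only [mul_add, add_mul]

lemma phiPolyD_conj (h : U * V = 1) (p : Polynomial ℝ) (M W B B' : Matrix (Fin n) (Fin n) ℂ) :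
    phiPolyD p (V * M * U) (V * W * U) (V * B * U) (V * B' * U) = phiPolyD p M W B B' := by
  have ht : ∀ X : Matrix (Fin n) (Fin n) ℂ, (V * X * U).trace = X.trace := fun X => by
    rw [Matrix.trace_mul_comm, ← mul_assoc, h, one_mul]
  simp only [phiPolyD, iterY_conj h, iterD_conj h, conj_mul h, ht]

/-! ### Closed forms in an eigenbasis -/

lemma iterY_diagonal (m : Fin n → ℝ) (B : Matrix (Fin n) (Fin n) ℂ) (k : ℕ) (i j : Fin n) :
    iterY (Matrix.diagonal fun i => (m i : ℂ)) B k i j = (((m i + m j) ^ k : ℝ) : ℂ) * B i j := by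
  induction k with
  | zero => simp [iterY]
  | succ k ih =>
    simp only [iterY, Matrix.add_apply, Matrix.diagonal_mul, Matrix.mul_diagonal, ih]
    push_cast
    ring

lemma iterD_diagonal (m : Fin n → ℝ) (B B' : Matrix (Fin n) (Fin n) ℂ) (k : ℕ) (i j : Fin n) :
    iterD (Matrix.diagonal fun i => (m i : ℂ)) B B B' k i j =
      (((m i + m j) ^ k : ℝ) : ℂ) * B' i j +
        ∑ l, ((powDD k (m i + m j) (m l + m j) + powDD k (m i + m j) (m i + m l) : ℝ) : ℂ) *
          (B i l * B l j) := by
  induction k with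
  | zero => simp [iterD, powDD]
  | succ k ih =>
    simp only [iterD, Matrix.add_apply, Matrix.diagonal_mul, Matrix.mul_diagonal, ih]
    simp only [Matrix.mul_apply, iterY_diagonal]
    have e : ∀ l, ((powDD (k + 1) (m i + m j) (m l + m j) +
        powDD (k + 1) (m i + m j) (m i + m l) : ℝ) : ℂ) * (B i l * B l j) =
        B i l * ((((m l + m j) ^ k : ℝ) : ℂ) * B l j) +
        (((m i + m l) ^ k : ℝ) : ℂ) * B i l * B l j +
        ((m i + m j : ℝ) : ℂ) * (((powDD k (m i + m j) (m l + m j) +
          powDD k (m i + m j) (m i + m l) : ℝ) : ℂ) * (B i l * B l j)) := by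
      intro l
      simp only [powDD]
      push_cast
      ring
    simp only [e, Finset.sum_add_distrib, ← Finset.mul_sum]
    push_cast
    ring

end Vale.Agent.P371
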